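import Vale.Agent.N156.Joint

/-!
Counting statistics: from convergence in law for the vague topology to the joint laws of the
numbers of points in intervals.
-/

open MeasureTheory ProbabilityTheory Filter Topology Set

namespace Vale.Agent.N156

open Vale.Agent.P156 Vale.Agent.P156W

/-- trapezoid functions -/
noncomputable def trap (a b δ x : ℝ) : ℝ := max 0 (min 1 (min ((x - a) / δ) ((b - x) / δ)))

theorem trap_cont (a b δ : ℝ) : Continuous (trap a b δ) := by
  unfold trap
  fun_prop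

theorem trap_nonneg (a b δ x : ℝ) : 0 ≤ trap a b δ x := le_max_left _ _

theorem trap_le_one (a b δ x : ℝ) : trap a b δ x ≤ 1 := max_le zero_le_one (min_le_left _ _)

theorem trap_one {a b δ x : ℝ} (hδ : 0 < δ) (h1 : a + δ ≤ x) (h2 : x ≤ b - δ) :
    trap a b δ x = 1 := by
  unfold trap
  rw [min_eq_left (le_min ((one_le_div hδ).2 (by linarith)) ((one_le_div hδ).2 (by linarith))),
    max_eq_right zero_le_one]

theorem trap_zero {a b δ x : ℝ} (hδ : 0 < δ) (h : x ∉ Ioo a b) : trap a b δ x = 0 := by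
  unfold trap
  refine max_eq_left ((min_le_right _ _).trans ?_)
  rw [mem_Ioo, not_and_or, not_lt, not_lt] at h
  rcases h with h | h
  · exact (min_le_left _ _).trans (div_nonpos_of_nonpos_of_nonneg (by linarith) hδ.le)
  · exact (min_le_right _ _).trans (div_nonpos_of_nonpos_of_nonneg (by linarith) hδ.le)

theorem trap_cs (a b : ℝ) {δ : ℝ} (hδ : 0 < δ) : HasCompactSupport (trap a b δ) :=
  HasCompactSupport.intro (isCompact_Icc (a := a) (b := b)) fun _ hx =>
    trap_zero hδ fun h => hx (Ioo_subset_Icc_self h)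

theorem fin_bdd (μ : LF) {s : Set ℝ} {a b : ℝ} (h : s ⊆ Icc a b) : μ.meas s ≠ ⊤ :=
  haveI := μ.2
  ((measure_mono h).trans_lt isCompact_Icc.measure_lt_top).ne

theorem int_ind (μ : LF) {s : Set ℝ} {a b : ℝ} (hs : MeasurableSet s) (h : s ⊆ Icc a b) :
    Integrable (s.indicator fun _ => (1 : ℝ)) μ.meas :=
  (integrable_indicator_iff hs).2 (integrableOn_const (fin_bdd μ h))

theorem trap_le (μ : LF) {a b δ p q : ℝ} (hδ : 0 < δ) {s : Set ℝ} (hs : MeasurableSet s)
    (h1 : Ioo a b ⊆ s) (h2 : s ⊆ Icc p q) : ∫ x, trap a b δ x ∂μ.meas ≤ μ.meas.real s := by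
  rw [← integral_indicator_one hs]
  refine integral_mono (integrable_cc μ (trap_cont _ _ _) (trap_cs _ _ hδ)) (int_ind μ hs h2)
    fun x => ?_
  by_cases hx : x ∈ s
  · rw [indicator_of_mem hx]
    exact trap_le_one _ _ _ _
  · rw [indicator_of_notMem hx, trap_zero hδ fun h => hx (h1 h)]

theorem le_trap (μ : LF) {a b δ : ℝ} (hδ : 0 < δ) {s : Set ℝ} (hs : MeasurableSet s)
    (h : s ⊆ Icc (a + δ) (b - δ)) : μ.meas.real s ≤ ∫ x, trap a b δ x ∂μ.meas := by
  rw [← integral_indicator_one hs]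
  refine integral_mono (int_ind μ hs h) (integrable_cc μ (trap_cont _ _ _) (trap_cs _ _ hδ))
    fun x => ?_
  by_cases hx : x ∈ s
  · rw [indicator_of_mem hx, trap_one hδ (h hx).1 (h hx).2]
    exact le_rfl
  · rw [indicator_of_notMem hx]
    exact trap_nonneg _ _ _ _

/-- the scales -/
noncomputable def sc (k : ℕ) : ℝ := 1 / ((k : ℝ) + 1)

theorem sc_pos (k : ℕ) : 0 < sc k := by unfold sc; positivity

theorem sc_le (k : ℕ) : sc k ≤ 1 := by
  unfold sc
  rw [div_le_one (by positivity)]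
  linarith [(Nat.cast_nonneg k : (0 : ℝ) ≤ k)]

theorem sc_ev {t : ℝ} (ht : 0 < t) : ∀ᶠ k in atTop, sc k < t :=
  tendsto_one_div_add_atTop_nhds_zero_nat.eventually (eventually_lt_nhds ht)

theorem tendsto_trap (μ : LF) {a b : ℝ} {u v : ℕ → ℝ} {s : Set ℝ} (hs : MeasurableSet s)
    (hu : ∀ k, a ≤ u k) (hv : ∀ k, v k ≤ b)
    (h : ∀ x, ∀ᶠ k in atTop, trap (u k) (v k) (sc k) x = s.indicator 1 x) :
    Tendsto (fun k => ∫ x, trap (u k) (v k) (sc k) x ∂μ.meas) atTop (𝓝 (μ.meas.real s)) := by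
  rw [← integral_indicator_one hs]
  refine tendsto_integral_of_dominated_convergence ((Icc a b).indicator fun _ => (1 : ℝ))
    (fun k => (trap_cont _ _ _).aestronglyMeasurable) (int_ind μ measurableSet_Icc le_rfl)
    (fun k => Eventually.of_forall fun x => ?_)
    (Eventually.of_forall fun x => tendsto_const_nhds.congr' ((h x).mono fun k hk => hk.symm))
  rw [Real.norm_eq_abs, abs_of_nonneg (trap_nonneg _ _ _ _)]
  by_cases hx : x ∈ Icc a b
  · rw [indicator_of_mem hx]
    exact trap_le_one _ _ _ _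
  · rw [indicator_of_notMem hx, trap_zero (sc_pos k) fun h =>
      hx ⟨(hu k).trans h.1.le, h.2.le.trans (hv k)⟩]

theorem lim_Ioc (μ : LF) (a b : ℝ) : Tendsto (fun k => ∫ x, trap a (b + sc k) (sc k) x ∂μ.meas)
    atTop (𝓝 (μ.meas.real (Ioc a b))) := by
  refine tendsto_trap μ (a := a) (b := b + 1) measurableSet_Ioc (fun _ => le_rfl)
    (fun k => by linarith [sc_le k]) fun x => ?_
  by_cases hx : x ∈ Ioc a b
  · filter_upwards [sc_ev (sub_pos.2 hx.1)] with k hk
    rw [indicator_of_mem hx, trap_one (sc_pos k) (by linarith) (by linarith [hx.2])]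
    rfl
  · rw [indicator_of_notMem hx]
    rw [mem_Ioc, not_and_or, not_lt, not_le] at hx
    rcases hx with hx | hx
    · exact Eventually.of_forall fun k => trap_zero (sc_pos k) fun h => by linarith [h.1]
    · filter_upwards [sc_ev (sub_pos.2 hx)] with k hk
      exact trap_zero (sc_pos k) fun h => by linarith [h.2]

theorem lim_Ioo (μ : LF) (a b : ℝ) : Tendsto (fun k => ∫ x, trap a b (sc k) x ∂μ.meas)
    atTop (𝓝 (μ.meas.real (Ioo a b))) := by
  refine tendsto_trap μ (a := a) (b := b) measurableSet_Ioo (fun _ => le_rfl)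
    (fun k => le_rfl) fun x => ?_
  by_cases hx : x ∈ Ioo a b
  · filter_upwards [sc_ev (sub_pos.2 hx.1), sc_ev (sub_pos.2 hx.2)] with k hk hk'
    rw [indicator_of_mem hx, trap_one (sc_pos k) (by linarith) (by linarith)]
    rfl
  · rw [indicator_of_notMem hx]
    exact Eventually.of_forall fun k => trap_zero (sc_pos k) hx

theorem lim_Icc (μ : LF) (a b : ℝ) :
    Tendsto (fun k => ∫ x, trap (a - sc k) (b + sc k) (sc k) x ∂μ.meas)
    atTop (𝓝 (μ.meas.real (Icc a b))) := by
  refine tendsto_trap μ (a := a - 1) (b := b + 1) measurableSet_Icc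
    (fun k => by linarith [sc_le k]) (fun k => by linarith [sc_le k]) fun x => ?_
  by_cases hx : x ∈ Icc a b
  · refine Eventually.of_forall fun k => ?_
    rw [indicator_of_mem hx, trap_one (sc_pos k) (by linarith [hx.1]) (by linarith [hx.2])]
    rfl
  · rw [indicator_of_notMem hx]
    rw [mem_Icc, not_and_or, not_le, not_le] at hx
    rcases hx with hx | hx
    · filter_upwards [sc_ev (sub_pos.2 hx)] with k hk
      exact trap_zero (sc_pos k) fun h => by linarith [h.1]
    · filter_upwards [sc_ev (sub_pos.2 hx)] with k hk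
      exact trap_zero (sc_pos k) fun h => by linarith [h.2]

theorem meas_cnt (a b : ℝ) : Measurable fun μ : LF => μ.meas.real (Ioc a b) :=
  measurable_of_tendsto_metrizable
    (fun k => (cont_int (trap_cont a (b + sc k) (sc k)) (trap_cs _ _ (sc_pos k))).measurable)
    (tendsto_pi_nhds.2 fun μ => lim_Ioc μ a b)

theorem contAt_cnt {μ : LF} {a b : ℝ} (ha : μ.meas {a} = 0) (hb : μ.meas {b} = 0) :
    ContinuousAt (fun ν : LF => ν.meas.real (Ioc a b)) μ := by
  have e1 : μ.meas.real (Ioo a b) = μ.meas.real (Ioc a b) :=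
    measureReal_congr (Ioo_ae_eq_Ioc' hb)
  have e2 : μ.meas.real (Icc a b) = μ.meas.real (Ioc a b) :=
    (measureReal_congr (Ioc_ae_eq_Icc' ha)).symm
  refine tendsto_order.2 ⟨fun c hc => ?_, fun c hc => ?_⟩
  · obtain ⟨k, hk⟩ := ((lim_Ioo μ a b).eventually (eventually_gt_nhds (hc.trans_eq e1.symm))).exists
    filter_upwards [(cont_int (trap_cont a b (sc k)) (trap_cs _ _ (sc_pos k))).continuousAt.eventually
      (eventually_gt_nhds hk)] with ν hν
    exact hν.trans_le (trap_le ν (sc_pos k) measurableSet_Ioc Ioo_subset_Ioc_self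
      Ioc_subset_Icc_self)
  · obtain ⟨k, hk⟩ := ((lim_Icc μ a b).eventually (eventually_lt_nhds (e2.trans_lt hc))).exists
    filter_upwards [(cont_int (trap_cont (a - sc k) (b + sc k) (sc k))
      (trap_cs _ _ (sc_pos k))).continuousAt.eventually (eventually_lt_nhds hk)] with ν hν
    refine lt_of_le_of_lt (le_trap ν (sc_pos k) measurableSet_Ioc fun x hx => ?_) hν
    exact ⟨by linarith [hx.1], by linarith [hx.2]⟩

/-- integer valued measures -/
def IntV (ν : LF) : Prop := ∀ s, MeasurableSet s → ∃ k : ℕ∞, ν.meas s = k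

theorem intV_sum {ν : LF} {κ : Type} {z : κ → ℝ} (h : ν.meas = Measure.sum fun k =>
    Measure.dirac (z k)) : IntV ν := fun s hs => by
  refine ⟨(z ⁻¹' s).encard, ?_⟩
  rw [h, Measure.sum_apply _ hs, ← ENNReal.tsum_set_one, tsum_subtype (z ⁻¹' s) fun _ => 1]
  refine tsum_congr fun k => ?_
  rw [Measure.dirac_apply' _ hs]
  rfl

theorem intV_fin {ν : LF} {n : ℕ} {z : Fin n → ℝ} (h : ν.meas = ∑ k, Measure.dirac (z k)) :
    IntV ν := intV_sum (z := z) (by rw [h, Measure.sum_fintype])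

theorem IntV.nat {ν : LF} (h : IntV ν) {s : Set ℝ} (hs : MeasurableSet s) {a b : ℝ}
    (h2 : s ⊆ Icc a b) : ∃ k : ℕ, ν.meas s = k := by
  obtain ⟨k, hk⟩ := h s hs
  have := fin_bdd ν h2
  induction k using ENat.recTopCoe with
  | top => exact absurd hk this
  | coe k => exact ⟨k, hk⟩

theorem IntV.near {ν : LF} (h : IntV ν) (a b : ℝ) (k : ℕ) :
    (|ν.meas.real (Ioc a b) - k| < 1 / 2 ↔ ν.meas (Ioc a b) = k) ∧
      |ν.meas.real (Ioc a b) - k| ≠ 1 / 2 := by
  obtain ⟨j, hj⟩ := h.nat measurableSet_Ioc (Ioc_subset_Icc_self (a := a) (b := b))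
  rw [Measure.real, hj, ENNReal.toReal_natCast, Nat.cast_inj]
  rcases eq_or_ne j k with rfl | hne
  · simp
  · have : (1 : ℝ) ≤ |(j : ℝ) - k| := by
      have h1 : (1 : ℤ) ≤ |(j : ℤ) - k| := Int.one_le_abs (by omega)
      exact_mod_cast h1
    exact ⟨⟨fun h => by linarith, fun h => absurd h hne⟩, by linarith⟩

section conv

variable {ι : Type*} {Ω : ι → Type*} [∀ i, MeasurableSpace (Ω i)] {Ω' : Type*}
  [MeasurableSpace Ω'] {μ : (i : ι) → Measure (Ω i)} [∀ i, IsProbabilityMeasure (μ i)]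
  {P : Measure Ω'} [IsProbabilityMeasure P] {X : (i : ι) → Ω i → LF} {Ξ : Ω' → LF}
  {l : Filter ι}

theorem tendsto_bc (h : TendstoInDistribution X l Ξ μ P) {F : LF → ℝ} (hF : Continuous F)
    (h0 : ∀ ν, 0 ≤ F ν) (h1 : ∀ ν, F ν ≤ 1) :
    Tendsto (fun i => ∫ w, F (X i w) ∂μ i) l (𝓝 (∫ ω, F (Ξ ω) ∂P)) := by
  have h2 := ProbabilityMeasure.tendsto_iff_forall_integral_tendsto.1 h.tendsto
    (BoundedContinuousFunction.mkOfBound ⟨F, hF⟩ 1 fun x y => by
      show dist (F x) (F y) ≤ 1
      rw [Real.dist_eq, abs_le]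
      constructor <;> linarith [h0 x, h0 y, h1 x, h1 y])
  simp only [ProbabilityMeasure.coe_mk, BoundedContinuousFunction.mkOfBound_coe,
    ContinuousMap.coe_mk, integral_map h.aemeasurable_limit hF.aestronglyMeasurable,
    fun i => integral_map (h.forall_aemeasurable i) hF.aestronglyMeasurable] at h2
  exact h2

/-- joint laws of the numbers of points in intervals -/
theorem tendsto_counts (h : TendstoInDistribution X l Ξ μ P) (hX : ∀ i w, IntV (X i w))
    (hΞ : ∀ ω, IntV (Ξ ω)) (h0 : ∀ t, P {ω | (Ξ ω).meas {t} ≠ 0} = 0) {m : ℕ}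
    (a b : Fin m → ℝ) (k : Fin m → ℕ) :
    Tendsto (fun i => (μ i).real {w | ∀ j, (X i w).meas (Ioc (a j) (b j)) = k j}) l
      (𝓝 (P.real {ω | ∀ j, (Ξ ω).meas (Ioc (a j) (b j)) = k j})) := by
  have := outer
  set A : Set LF := {ν | ∀ j, |ν.meas.real (Ioc (a j) (b j)) - k j| < 1 / 2} with hA
  have mA : MeasurableSet A := by
    rw [hA, ofPred_forall]
    exact MeasurableSet.iInter fun j =>
      measurableSet_lt ((meas_cnt _ _).sub_const _).abs measurable_const
  have hfr : (P.map Ξ) (frontier A) = 0 := by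
    rw [Measure.map_apply_of_aemeasurable h.aemeasurable_limit isClosed_frontier.measurableSet]
    refine measure_mono_null (t := ⋃ j, ({ω | (Ξ ω).meas {a j} ≠ 0} ∪ {ω | (Ξ ω).meas {b j} ≠ 0}))
      (fun ω hω => ?_) (measure_iUnion_null fun j => measure_union_null (h0 _) (h0 _))
    by_contra hc
    simp only [mem_iUnion, mem_union, mem_ofPred_eq, not_exists, not_or, not_not] at hc
    have hct : ∀ j, ContinuousAt (fun ν : LF => |ν.meas.real (Ioc (a j) (b j)) - k j|) (Ξ ω) :=
      fun j => ((contAt_cnt (hc j).1 (hc j).2).sub continuousAt_const).abs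
    by_cases hm : Ξ ω ∈ A
    · refine hω.2 (mem_interior_iff_mem_nhds.2 ?_)
      exact eventually_all.2 fun j => (hct j).eventually (eventually_lt_nhds (hm j))
    · obtain ⟨j, hj⟩ := not_forall.1 hm
      have h3 := lt_of_le_of_ne (not_lt.1 hj) ((hΞ ω).near (a j) (b j) (k j)).2.symm
      obtain ⟨ν, h4, h5⟩ := mem_closure_iff_nhds.1 hω.1 _ ((hct j).eventually
        (eventually_gt_nhds h3))
      exact lt_asymm h4 (h5 j)
  have h2 := ProbabilityMeasure.tendsto_measure_of_null_frontier_of_tendsto' h.tendsto hfr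
  simp only [ProbabilityMeasure.coe_mk, Measure.map_apply_of_aemeasurable h.aemeasurable_limit mA,
    fun i => Measure.map_apply_of_aemeasurable (h.forall_aemeasurable i) mA] at h2
  have e1 : ∀ i, X i ⁻¹' A = {w | ∀ j, (X i w).meas (Ioc (a j) (b j)) = k j} := fun i =>
    Set.ext fun w => forall_congr' fun j => ((hX i w).near _ _ _).1
  have e2 : Ξ ⁻¹' A = {w | ∀ j, (Ξ w).meas (Ioc (a j) (b j)) = k j} :=
    Set.ext fun w => forall_congr' fun j => ((hΞ w).near _ _ _).1
  simp only [e1, e2] at h2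
  exact (ENNReal.tendsto_toReal (measure_ne_top _ _)).comp h2

end conv

end Vale.Agent.N156
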