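import Vale.Agent.P156W.Pub

namespace Vale.Agent.N156

open Vale.Agent.P156

/-- The `k`-th smallest eigenvalue `x` of the adjacency matrix (`k = 0, ..., n - 1`, with
multiplicity), unfolded by the Kesten-McKay distribution function: `n` times the integral of the
Kesten-McKay density up to `x`. -/
noncomputable def unf (d : ℕ) {n : ℕ} (G : SimpleGraph (Fin n)) (k : ℕ) : ℝ :=
  if h : k < n then n * ∫ t in Set.Iic (eig G (Tuple.sort (eig G) ⟨k, h⟩)), rho d t else 0

end Vale.Agent.N156
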