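import Vale.Agent.N156.KM
import Vale.Agent.N156.Defs

/-!
The stop-loss transform of the mean spacing law is an average of hole probabilities.
-/

open MeasureTheory ProbabilityTheory Filter Topology Set

namespace Vale.Agent.N156

open Vale.Agent.P156 Vale.Agent.P156W

open Classical in
theorem gaps_ind {n : ℕ} {z : ℕ → ℝ} (hz : ∀ j k, j ≤ k → k < n → z j ≤ z k) {s : ℝ}
    (hs : 0 ≤ s) (t : ℝ) :
    ∑ k ∈ Finset.range (n - 1), (Ico (z k) (z (k + 1) - s)).indicator (fun _ => (1 : ℝ)) t =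
      if (∃ k < n, z k ≤ t) ∧ (∃ k < n, t < z k) ∧ ∀ k < n, z k ∉ Ioc t (t + s) then 1 else 0 := by
  split_ifs with h
  · obtain ⟨⟨i, hi, hit⟩, ⟨j, hj, htj⟩, h3⟩ := h
    set K := Nat.findGreatest (fun k => z k ≤ t) (n - 1) with hK
    have k1 : z K ≤ t := Nat.findGreatest_spec (P := fun k => z k ≤ t) (show i ≤ n - 1 by omega) hit
    have k2 : K ≤ n - 1 := Nat.findGreatest_le _
    have k3 : K < n - 1 := by
      by_contra hc
      linarith [hz j K (by omega) (by omega)]
    have k4 : t < z (K + 1) := not_le.1 (Nat.findGreatest_is_greatest (P := fun k => z k ≤ t)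
      (Nat.lt_succ_self K) (by omega))
    rw [Finset.sum_eq_single K, indicator_of_mem]
    · refine ⟨k1, ?_⟩
      by_contra hc
      exact h3 (K + 1) (by omega) ⟨k4, by linarith⟩
    · intro k hk hne
      rw [Finset.mem_range] at hk
      refine indicator_of_notMem (fun hm => ?_) _
      rcases lt_or_gt_of_ne hne with h | h
      · linarith [hz (k + 1) K h (by omega), hm.2]
      · linarith [hz (K + 1) k h (by omega), hm.1]
    · exact fun h => absurd (Finset.mem_range.2 k3) h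
  · refine Finset.sum_eq_zero fun k hk => indicator_of_notMem (fun hm => h ?_) _
    rw [Finset.mem_range] at hk
    refine ⟨⟨k, by omega, hm.1⟩, ⟨k + 1, by omega, by linarith [hm.2]⟩, fun j hj hm' => ?_⟩
    rcases le_or_gt j k with h1 | h1
    · linarith [hz j k h1 (by omega), hm.1, hm'.1]
    · linarith [hz (k + 1) j h1 hj, hm.2, hm'.2]

variable {d n : ℕ}

/-- sorted eigenvalues in the scale of the distribution function -/
noncomputable def zs (d : ℕ) (G : SimpleGraph (Fin n)) (k : ℕ) : ℝ :=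
  if h : k < n then cdf d (eig G (Tuple.sort (eig G) ⟨k, h⟩)) else 0

theorem unf_eq (G : SimpleGraph (Fin n)) (k : ℕ) : unf d G k = n * zs d G k := by
  unfold unf zs cdf
  split_ifs <;> simp

theorem zs_mono (hd : 3 ≤ d) (G : SimpleGraph (Fin n)) (j k : ℕ) (h : j ≤ k) (hk : k < n) :
    zs d G j ≤ zs d G k := by
  unfold zs
  rw [dif_pos hk, dif_pos (h.trans_lt hk)]
  exact cdf_mono hd (Tuple.monotone_sort (eig G) (show (⟨j, _⟩ : Fin n) ≤ ⟨k, hk⟩ from h))

theorem zs_mem (hd : 3 ≤ d) (G : SimpleGraph (Fin n)) (k : ℕ) : zs d G k ∈ Icc (0 : ℝ) 1 := by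
  unfold zs
  split_ifs
  · exact cdf_mem hd _
  · exact ⟨le_rfl, zero_le_one⟩

theorem all_zs (G : SimpleGraph (Fin n)) (p : ℝ → Prop) :
    (∀ k < n, p (zs d G k)) ↔ ∀ i, p (cdf d (eig G i)) := by
  refine ⟨fun h i => ?_, fun h k hk => ?_⟩
  · have := h _ ((Tuple.sort (eig G)).symm i).2
    unfold zs at this
    simpa using this
  · unfold zs
    rw [dif_pos hk]
    exact h _

theorem ex_zs (G : SimpleGraph (Fin n)) (p : ℝ → Prop) :
    (∃ k < n, p (zs d G k)) ↔ ∃ i, p (cdf d (eig G i)) := by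
  have := (all_zs (d := d) G fun x => ¬ p x).not
  push Not at this
  exact this

/-- a hole of length `r` after `u`, with eigenvalues on both sides -/
def Hole (d : ℕ) (G : SimpleGraph (Fin n)) (u r : ℝ) : Prop :=
  (∃ i, cdf d (eig G i) ≤ u) ∧ (∃ i, u < cdf d (eig G i)) ∧ ∀ i, cdf d (eig G i) ∉ Ioc u (u + r)

/-- the indicator of the holes -/
noncomputable def gind (d : ℕ) (G : SimpleGraph (Fin n)) (r u : ℝ) : ℝ :=
  ∑ k ∈ Finset.range (n - 1), (Ico (zs d G k) (zs d G (k + 1) - r)).indicator (fun _ => 1) u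

open Classical in
theorem gind_eq (hd : 3 ≤ d) (G : SimpleGraph (Fin n)) {r : ℝ} (hr : 0 ≤ r) (u : ℝ) :
    gind d G r u = if Hole d G u r then 1 else 0 := by
  unfold gind
  rw [gaps_ind (zs_mono hd G) hr]
  exact if_congr (and_congr (ex_zs G (· ≤ u)) (and_congr (ex_zs G (u < ·))
    (all_zs G (· ∉ Ioc u (u + r))))) rfl rfl

theorem gind_int (G : SimpleGraph (Fin n)) (r : ℝ) : Integrable (gind d G r) :=
  integrable_finsetSum _ fun _ _ => (integrable_indicator_iff measurableSet_Ico).2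
    (integrableOn_const measure_Ico_lt_top.ne)

theorem sum_gap (hd : 3 ≤ d) (hn : 0 < n) (G : SimpleGraph (Fin n)) {s : ℝ} (hs : 0 ≤ s) :
    (∑ k ∈ Finset.range (n - 1), max (unf d G (k + 1) - unf d G k - s) 0) / n =
      ∫ u in Icc (0 : ℝ) 1, gind d G (s / n) u := by
  have hn' : (0 : ℝ) < n := by exact_mod_cast hn
  have hr : 0 ≤ s / n := by positivity
  rw [setIntegral_eq_integral_of_forall_compl_eq_zero]
  · unfold gind
    rw [integral_finsetSum _ fun _ _ => (integrable_indicator_iff measurableSet_Ico).2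
      (integrableOn_const measure_Ico_lt_top.ne), Finset.sum_div]
    refine Finset.sum_congr rfl fun k _ => ?_
    rw [integral_indicator_const _ measurableSet_Ico, Real.volume_real_Ico, smul_eq_mul, mul_one,
      ← max_div_div_right hn'.le, unf_eq, unf_eq, zero_div]
    congr 1
    field_simp
    ring
  · refine fun u hu => Finset.sum_eq_zero fun k _ => indicator_of_notMem (fun hm => hu ?_) _
    exact ⟨(zs_mem hd G k).1.trans hm.1, by linarith [hm.2, (zs_mem hd G (k + 1)).2]⟩

theorem avg_gind (hd : 3 ≤ d) {r : ℝ} (hr : 0 ≤ r) (u : ℝ) :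
    avg (regularGraphs n d) (fun G => gind d G r u) =
      prob (regularGraphs n d) (fun G => Hole d G u r) := by
  unfold prob
  simp only [gind_eq hd _ hr]

variable {Ω : Type} [MeasurableSpace Ω] {P : Measure Ω} [IsProbabilityMeasure P] {Ξ : Ω → LF}

/-- the hole probability of the limit -/
noncomputable def holeP (P : Measure Ω) (Ξ : Ω → LF) (s : ℝ) : ℝ :=
  P.real {ω | (Ξ ω).meas (Ioc 0 s) = 0}

theorem Xi_zero (E : ℝ) (G : SimpleGraph (Fin n)) (r : ℝ) :
    Xi n d E G (Ioc 0 r) = 0 ↔ ∀ i, rho d E * xx E G i ∉ Ioc 0 r := by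
  unfold Xi xx
  rw [Measure.finsetSum_apply, Finset.sum_eq_zero_iff]
  simp only [Finset.mem_univ, true_imp_iff, Measure.dirac_apply' _ measurableSet_Ioc,
    indicator_apply_eq_zero, Pi.one_apply, one_ne_zero, imp_false, mul_assoc, mul_left_comm]

theorem Lim.hole_lim (h : Lim P Ξ) (hd : 3 ≤ d) {E : ℝ}
    (hE : |E| < 2 * Real.sqrt ((d : ℝ) - 1)) (r : ℝ) :
    Tendsto (fun n : Adm d => prob (regularGraphs n d) fun G => ∀ i, rho d E * xx E G i ∉ Ioc 0 r)
      (comap Subtype.val atTop) (𝓝 (holeP P Ξ r)) := by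
  have k := tendsto_counts (h.move d hd E hE (fun _ => E) tendsto_const_nhds)
    (fun n x => intV_graph _ _ _ x) h.intV h.no_atom (fun _ : Fin 1 => 0) (fun _ => r) (fun _ => 0)
  simp only [forall_const, Nat.cast_zero] at k
  refine k.congr fun n => ?_
  rw [← real_graph]
  congr 1
  exact Set.ext fun x => Xi_zero E x.G r

theorem Lim.hole_lip (h : Lim P Ξ) {r r' s η : ℝ} (hη : 0 < η) (h1 : s - η ≤ r)
    (h2 : r' ≤ s + η) : holeP P Ξ r ≤ holeP P Ξ r' + 6600 * η := by
  refine le_trans (measureReal_mono (s₂ := {ω | (Ξ ω).meas (Ioc 0 r') = 0} ∪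
    {ω | (Ξ ω).meas (Icc (s - η) (s + η)) ≠ 0}) fun ω hω => ?_)
    ((measureReal_union_le _ _).trans (add_le_add le_rfl (h.near_le s hη)))
  by_cases h3 : (Ξ ω).meas (Icc (s - η) (s + η)) = 0
  · refine Or.inl (measure_mono_null (fun x hx => ?_) (measure_union_null hω h3))
    rcases le_or_gt x r with h4 | h4
    · exact Or.inl ⟨hx.1, h4⟩
    · exact Or.inr ⟨by linarith, by linarith [hx.2]⟩
  · exact Or.inr h3

theorem Lim.hole_zero (h : Lim P Ξ) : Tendsto (holeP P Ξ) atTop (𝓝 0) := by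
  have hE := zero_bulk (le_refl 3)
  have := adm_neBot 3
  have hc := G.rho_pos' le_rfl hE
  refine tendsto_order.2 ⟨fun a ha => Eventually.of_forall fun s =>
    ha.trans_le measureReal_nonneg, fun ε hε => ?_⟩
  obtain ⟨B, hB, hev⟩ := hole_small le_rfl hE (half_pos hε)
  filter_upwards [eventually_ge_atTop (rho 3 0 * (2 * B + 1))] with s hs
  refine lt_of_le_of_lt (le_of_tendsto (h.hole_lim le_rfl hE s) ?_) (half_lt_self hε)
  filter_upwards [tendsto_adm 3 hev] with n hn
  refine le_trans (H942.prob_mono fun G _ hG i => ?_) (hn (B + 1) (abs_of_pos (by linarith)).le)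
  by_contra hc'
  rw [not_lt, abs_le] at hc'
  exact hG i ⟨mul_pos hc (by linarith [hc'.1]),
    (mul_le_mul_of_nonneg_left (by linarith [hc'.2]) hc.le).trans hs⟩

theorem Lim.hole_ev (h : Lim P Ξ) (hd : 3 ≤ d) {u : ℝ} (hu : u ∈ Ioo (0 : ℝ) 1) (s : ℝ) :
    Tendsto (fun n : Adm d => prob (regularGraphs n d) fun G => Hole d G u (s / n))
      (comap Subtype.val atTop) (𝓝 (holeP P Ξ s)) := by
  obtain ⟨E, hE, rfl⟩ := cdf_surj hd hu
  have hc := G.rho_pos' hd hE
  have hl : ∀ r : ℝ, Tendsto (fun n : ℕ => n * (cdf d (E + r / rho d E / n) - cdf d E))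
      (admissible d) (𝓝 r) := fun r => by
    have := (cdf_lim hd E (r / rho d E)).mono_left (inf_le_left : admissible d ≤ atTop)
    rwa [mul_div_cancel₀ _ hc.ne'] at this
  have hx : ∀ {n : ℕ} (G : SimpleGraph (Fin n)) (i : Fin n) (r : ℝ),
      (rho d E * xx E G i ≤ r ↔ eig G i ≤ E + r / rho d E / n) := fun {n} G i r => by
    have hn : (0 : ℝ) < n := by exact_mod_cast i.pos
    unfold xx
    rw [← sub_le_iff_le_add', le_div_iff₀ hn, le_div_iff₀ hc]
    constructor <;> intro h <;> linarith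
  have hx0 : ∀ {n : ℕ} (G : SimpleGraph (Fin n)) (i : Fin n),
      (0 < rho d E * xx E G i ↔ E < eig G i) := fun G i => by
    rw [← not_le, hx, ← not_le]
    simp
  refine Metric.tendsto_nhds.2 fun ε hε => ?_
  set η := ε / 20000 with hη
  have hη0 : 0 < η := by positivity
  obtain ⟨B, hB, hev⟩ := hole_small hd hE hη0
  have l1 := h.hole_lip (r := s - η) (r' := s) (s := s) hη0 le_rfl (by linarith)
  have l2 := h.hole_lip (r := s) (r' := s + η) (s := s) hη0 (by linarith) le_rfl
  filter_upwards [Metric.tendsto_nhds.1 (h.hole_lim hd hE (s - η)) η hη0,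
    Metric.tendsto_nhds.1 (h.hole_lim hd hE (s + η)) η hη0, tendsto_adm d hev,
    tendsto_adm d ((hl (s - η)).eventually (eventually_lt_nhds (show s - η < s by linarith))),
    tendsto_adm d ((hl (s + η)).eventually (eventually_gt_nhds (show s < s + η by linarith)))]
    with n h1 h2 h3 h4 h5
  have hn : (0 : ℝ) < (n : ℕ) := by exact_mod_cast (Nat.zero_le _).trans_lt n.2.1
  replace h4 : cdf d (E + (s - η) / rho d E / n) < cdf d E + s / n := by
    rw [← sub_lt_iff_lt_add', lt_div_iff₀' hn]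
    exact h4
  replace h5 : cdf d E + s / n < cdf d (E + (s + η) / rho d E / n) := by
    rw [← lt_sub_iff_add_lt', div_lt_iff₀' hn]
    exact h5
  have k1 : (prob (regularGraphs n d) fun G => Hole d G (cdf d E) (s / n)) ≤
      prob (regularGraphs n d) fun G => ∀ i, rho d E * xx E G i ∉ Ioc 0 (s - η) :=
    H942.prob_mono fun G _ hG i hi => hG.2.2 i ⟨cdf_strict hd hE ((hx0 G i).1 hi.1),
      ((cdf_mono hd ((hx G i _).1 hi.2)).trans_lt h4).le⟩
  have k2 : (prob (regularGraphs n d) fun G => ∀ i, rho d E * xx E G i ∉ Ioc 0 (s + η)) ≤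
      (prob (regularGraphs n d) fun G => Hole d G (cdf d E) (s / n)) + (η + η) := by
    refine le_trans (H942.prob_mono (Q := fun G => Hole d G (cdf d E) (s / n) ∨
      ((∀ i, B < |xx E G i - (B + 1)|) ∨ ∀ i, B < |xx E G i - -(B + 1)|)) fun G _ hG => ?_)
      ((H737.prob_or_le _ _ _).trans (add_le_add le_rfl ((H737.prob_or_le _ _ _).trans
        (add_le_add (h3 _ (abs_of_pos (by linarith)).le)
          (h3 _ (by rw [abs_neg, abs_of_pos (by linarith)]))))))
    by_contra hcon
    simp only [not_or, not_forall, not_lt, abs_le] at hcon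
    obtain ⟨p1, ⟨i, p2⟩, j, p3⟩ := hcon
    refine p1 ⟨⟨j, cdf_mono hd (not_lt.1 fun q => ?_)⟩,
      ⟨i, cdf_strict hd hE ((hx0 G i).1 (mul_pos hc (by linarith [p2.1])))⟩,
      fun k hk => hG k ⟨(hx0 G k).2 (not_le.1 fun q => ?_), (hx G k _).2 (not_lt.1 fun q => ?_)⟩⟩
    · linarith [(pos_iff_pos_of_mul_pos ((hx0 G j).2 q)).1 hc, p3.2]
    · linarith [cdf_mono hd q, hk.1]
    · linarith [cdf_mono hd q.le, hk.2]
  rw [Real.dist_eq, abs_lt] at h1 h2 ⊢
  constructor <;> linarith [h1.2, h2.1]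

end Vale.Agent.N156
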