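import Vale.Agent.N156.Count

/-!
The limit has no fixed atoms and no infinite holes.
-/

open MeasureTheory ProbabilityTheory Filter Topology Set

namespace Vale.Agent.N156

open Vale.Agent.P156 Vale.Agent.P156W
open Vale.Agent.P156.H801 (avg_mono avg_const_mul avg_add Xim Xim_sub_le Xim_nonneg)

theorem adm_neBot (d : ℕ) : (comap (Subtype.val : Adm d → ℕ) atTop).NeBot := by
  refine comap_neBot fun t ht => ?_
  obtain ⟨N, hN⟩ := mem_atTop_sets.1 ht
  exact ⟨⟨2 * (N + d + 1), by omega, ⟨(N + d + 1) * d, by ring⟩⟩, hN _ (by show N ≤ 2 * (N + d + 1); omega)⟩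

theorem int_le_real {α : Type*} [MeasurableSpace α] {μ : Measure α} [IsFiniteMeasure μ]
    {F : α → ℝ} (hF : Measurable F) (h0 : ∀ w, 0 ≤ F w) (h1 : ∀ w, F w ≤ 1) {S : Set α}
    (hS : ∀ w, F w ≠ 0 → w ∈ S) : ∫ w, F w ∂μ ≤ μ.real S := by
  have m : MeasurableSet {w | F w ≠ 0} := (hF (measurableSet_singleton 0)).compl
  refine le_trans ?_ (measureReal_mono (s₁ := {w | F w ≠ 0}) hS)
  rw [← integral_indicator_one m]
  refine integral_mono_of_nonneg (Eventually.of_forall h0)
    ((integrable_const (1 : ℝ)).indicator m) (Eventually.of_forall fun w => ?_)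
  by_cases hw : F w = 0
  · rw [hw]
    exact indicator_nonneg (fun _ _ => zero_le_one) _
  · rw [indicator_of_mem (show w ∈ {w | F w ≠ 0} from hw)]
    exact h1 w

theorem real_le_int {α : Type*} [MeasurableSpace α] {μ : Measure α} [IsFiniteMeasure μ]
    {F : α → ℝ} (hF : Measurable F) (h0 : ∀ w, 0 ≤ F w) (h1 : ∀ w, F w ≤ 1) {S : Set α}
    (hS : ∀ w ∈ S, 1 ≤ F w) : μ.real S ≤ ∫ w, F w ∂μ := by
  have h2 := mul_meas_ge_le_integral_of_nonneg (μ := μ) (Eventually.of_forall h0)
    (Integrable.of_bound hF.aestronglyMeasurable 1 (Eventually.of_forall fun w => by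
      rw [Real.norm_eq_abs, abs_of_nonneg (h0 w)]
      exact h1 w)) 1
  rw [one_mul] at h2
  exact (measureReal_mono (s₂ := {w | 1 ≤ F w}) hS).trans h2

/-- the truncated trapezoid statistic -/
noncomputable def tst (a b δ : ℝ) (ν : LF) : ℝ := min 1 (∫ x, trap a b δ x ∂ν.meas)

theorem tst_cont (a b : ℝ) {δ : ℝ} (hδ : 0 < δ) : Continuous (tst a b δ) :=
  continuous_const.min (cont_int (trap_cont _ _ _) (trap_cs _ _ hδ))

theorem tst_nonneg (a b δ : ℝ) (ν : LF) : 0 ≤ tst a b δ ν :=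
  le_min zero_le_one (integral_nonneg (trap_nonneg _ _ _))

theorem tst_le (a b δ : ℝ) (ν : LF) : tst a b δ ν ≤ 1 := min_le_left _ _

theorem zero_bulk {d : ℕ} (hd : 3 ≤ d) : |(0 : ℝ)| < 2 * Real.sqrt ((d : ℝ) - 1) := by
  have : (3 : ℝ) ≤ d := by exact_mod_cast hd
  have := Real.sqrt_pos.2 (show (0 : ℝ) < d - 1 by linarith)
  rw [abs_zero]
  linarith

theorem tendsto_add_div (E s : ℝ) : Tendsto (fun n : ℕ => E + s / n) atTop (𝓝 E) := by
  simpa using (tendsto_const_div_atTop_nhds_zero_nat s).const_add E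

variable {Ω : Type} [MeasurableSpace Ω] {P : Measure Ω} [IsProbabilityMeasure P] {Ξ : Ω → LF}

theorem Lim.intV (h : Lim P Ξ) (ω : Ω) : IntV (Ξ ω) := by
  obtain ⟨κ, z, hz⟩ := h.point ω
  exact intV_sum hz

theorem Lim.tst_zero (h : Lim P Ξ) {r δ : ℝ} (hr : 0 < r) (hδ : 0 < δ) :
    ∫ ω, tst (-r) r δ (Ξ ω) ∂P ≤ 330 * (Real.pi * r) := by
  refine le_of_tendsto' (tendsto_bc h.goe (tst_cont _ _ hδ) (tst_nonneg _ _ _) (tst_le _ _ _))
    fun n => ?_
  have hp := Real.pi_pos
  refine (int_le_real ((tst_cont _ _ hδ).measurable.comp (meas_goe n)) (fun _ => tst_nonneg _ _ _ _)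
    (fun _ => tst_le _ _ _ _) (S := {w | ∃ i, |n * H625.ev w i| ≤ Real.pi * r})
    fun w hw => ?_).trans (ENNReal.toReal_le_of_le_ofReal (by positivity)
      (H625.goeLaw_exists_le n (by positivity)))
  by_contra hc
  refine hw ?_
  show min 1 (∫ x, trap (-r) r δ x ∂XiGOE n w) = 0
  rw [H849.integral_XiGOE, Finset.sum_eq_zero, min_eq_right zero_le_one]
  refine fun i _ => trap_zero hδ fun hi => hc ⟨i, ?_⟩
  have e : (n : ℝ) * H625.ev w i =
      Real.pi * (n / Real.pi * (goeMat_isHermitian w).eigenvalues i) := by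
    unfold H625.ev
    field_simp
  rw [e, abs_mul, abs_of_pos hp]
  exact mul_le_mul_of_nonneg_left (abs_le.2 ⟨hi.1.le, hi.2.le⟩) hp.le

/-- Wegner bound for the limit, at every point -/
theorem Lim.near_le (h : Lim P Ξ) (t : ℝ) {δ : ℝ} (hδ : 0 < δ) :
    P.real {ω | (Ξ ω).meas (Icc (t - δ) (t + δ)) ≠ 0} ≤ 6600 * δ := by
  have hE := zero_bulk (le_refl 3)
  have := adm_neBot 3
  set c := rho 3 0 with hc
  have hc0 : 0 < c := G.rho_pos' le_rfl hE
  have k1 := tendsto_bc (h.move 3 le_rfl 0 hE (fun _ => 0) tendsto_const_nhds)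
    (tst_cont (t - 2 * δ) (t + 2 * δ) hδ) (tst_nonneg _ _ _) (tst_le _ _ _)
  have k2 := tendsto_bc (h.move 3 le_rfl 0 hE _ (tendsto_add_div 0 (t / c)))
    (tst_cont (-(5 * δ)) (5 * δ) hδ) (tst_nonneg _ _ _) (tst_le _ _ _)
  have k3 := le_of_tendsto_of_tendsto k1 k2 (by
    filter_upwards [tendsto_adm 3 (ev_rho le_rfl hE inf_le_left (e := fun _ => 0)
      tendsto_const_nhds |t / c| hc0)] with n hn
    have h1 := abs_le.1 (hn (t / c) le_rfl)
    have hn0 : (0 : ℝ) < (n : ℕ) := by exact_mod_cast (Nat.zero_le _).trans_lt n.2.1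
    refine integral_mono .of_finite .of_finite fun x => min_le_min le_rfl ?_
    show ∫ y, _ ∂Xi n 3 0 x.G ≤ ∫ y, _ ∂Xi n 3 (0 + t / c / n) x.G
    rw [H849.integral_Xi, H849.integral_Xi]
    refine Finset.sum_le_sum fun i _ => ?_
    by_cases hi : (n : ℕ) * rho 3 0 * (eig x.G i - 0) ∈ Ioo (t - 2 * δ) (t + 2 * δ)
    · have e : (n : ℕ) * rho 3 (0 + t / c / n) * (eig x.G i - (0 + t / c / n)) =
          rho 3 (0 + t / c / n) / c * ((n : ℕ) * rho 3 0 * (eig x.G i - 0) - t) := by
        rw [← hc]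
        field_simp
        ring
      have h2 : |rho 3 (0 + t / c / n) / c * ((n : ℕ) * rho 3 0 * (eig x.G i - 0) - t)| ≤
          2 * (2 * δ) := by
        rw [abs_mul]
        refine mul_le_mul ?_ (abs_le.2 ⟨by linarith [hi.1], by linarith [hi.2]⟩) (abs_nonneg _)
          zero_le_two
        rw [abs_div, abs_of_pos hc0, div_le_iff₀ hc0, abs_le]
        constructor <;> linarith [h1.1, h1.2]
      rw [abs_le] at h2
      rw [e]
      exact (trap_le_one _ _ _ _).trans_eq
        (trap_one hδ (by linarith [h2.1]) (by linarith [h2.2])).symm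
    · rw [trap_zero hδ hi]
      exact trap_nonneg _ _ _ _)
  have k4 := h.tst_zero (r := 5 * δ) (by positivity) hδ
  have k5 := real_le_int (μ := P) ((tst_cont (t - 2 * δ) (t + 2 * δ) hδ).measurable.comp h.meas)
    (fun _ => tst_nonneg _ _ _ _) (fun _ => tst_le _ _ _ _)
    (S := {ω | (Ξ ω).meas (Icc (t - δ) (t + δ)) ≠ 0}) fun ω hω => by
      obtain ⟨k, hk⟩ := (h.intV ω).nat measurableSet_Icc (le_refl (Icc (t - δ) (t + δ)))
      refine le_min le_rfl (le_trans ?_ (le_trap _ hδ (s := Icc (t - δ) (t + δ)) measurableSet_Icc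
        (Icc_subset_Icc (by linarith) (by linarith))))
      rw [mem_ofPred_eq, hk, Nat.cast_ne_zero] at hω
      rw [Measure.real, hk, ENNReal.toReal_natCast]
      exact_mod_cast Nat.one_le_iff_ne_zero.2 hω
  have := Real.pi_le_four
  calc _ ≤ 330 * (Real.pi * (5 * δ)) := k5.trans (k3.trans k4)
    _ ≤ 330 * (4 * (5 * δ)) := by gcongr
    _ = 6600 * δ := by ring

theorem Lim.no_atom (h : Lim P Ξ) (t : ℝ) : P {ω | (Ξ ω).meas {t} ≠ 0} = 0 := by
  rw [← measureReal_eq_zero_iff]
  refine le_antisymm (le_of_forall_pos_le_add fun ε hε => ?_) measureReal_nonneg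
  refine le_trans (measureReal_mono fun ω hω h0 => hω (measure_mono_null ?_ h0))
    ((h.near_le t (δ := ε / 6600) (by positivity)).trans (le_of_eq (by ring)))
  rw [singleton_subset_iff]
  constructor <;> linarith

theorem intV_graph (n d : ℕ) (E : ℝ) (x : RG n d) : IntV (graphPt n d E x) := intV_fin rfl

theorem intV_goe (n : ℕ) (w : Upper n → ℝ) : IntV (goePt n w) := intV_fin rfl

theorem real_graph (n d : ℕ) (p : SimpleGraph (Fin n) → Prop) :
    (graphLaw n d).real {x | p x.G} = prob (regularGraphs n d) p := by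
  classical
  rw [← integral_indicator_one (by trivial)]
  refine Eq.trans ?_ (int_graph n d fun G => if p G then 1 else 0)
  refine integral_congr_ae (Eventually.of_forall fun x => ?_)
  simp [indicator_apply]

/-- large holes are unlikely -/
theorem hole_small {d : ℕ} (hd : 3 ≤ d) {E : ℝ} (hE : |E| < 2 * Real.sqrt ((d : ℝ) - 1)) {ε : ℝ}
    (hε : 0 < ε) : ∃ B > 0, ∀ᶠ n : ℕ in admissible d, ∀ s : ℝ, |s| ≤ B + 1 →
      prob (regularGraphs n d) (fun G => ∀ i, B < |xx E G i - s|) ≤ ε := by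
  classical
  obtain ⟨a, b, hbk, hEab⟩ := H9.exists_bulk hd hE
  have hEv := specEv hbk
  set c := rho d E with hc
  have hc0 : 0 < c := G.rho_pos' hd hE
  obtain ⟨L₀, hL₀⟩ := hEv.2.2.1 1 (min (c / 4) (ε / 2)) (by positivity)
  set L := max L₀ 1 with hL
  have hL1 : 0 < L := lt_of_lt_of_le one_pos (le_max_right _ _)
  obtain ⟨B, hB⟩ := hEv.1 (ε * c / (8 * L)) (by positivity)
  refine ⟨|B| + 1, by positivity, ?_⟩
  have hin : ∀ᶠ n : ℕ in admissible d, ∀ s : ℝ, |s| ≤ |B| + 1 + 1 → E + s / n ∈ Icc a b := by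
    have k1 := (tendsto_add_div E (|B| + 1 + 1)).eventually (eventually_lt_nhds hEab.2)
    have k2 := (tendsto_add_div E (-(|B| + 1 + 1))).eventually (eventually_gt_nhds hEab.1)
    filter_upwards [k1.filter_mono inf_le_left, k2.filter_mono inf_le_left] with n h1 h2 s hs
    rw [abs_le] at hs
    have h3 := div_le_div_of_nonneg_right hs.1 (Nat.cast_nonneg (α := ℝ) n)
    have h4 := div_le_div_of_nonneg_right hs.2 (Nat.cast_nonneg (α := ℝ) n)
    constructor <;> linarith
  filter_upwards [hL₀ L (le_max_left _ _), hB, hin, H9.adm_pos_ev d, ev_rho hd hE inf_le_left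
    (e := fun _ => E) tendsto_const_nhds (|B| + 1 + 1) (half_pos hc0)] with n h1 h2 h3 hn h4 s hs
  have hn' : (0 : ℝ) < n := by exact_mod_cast hn
  set E' := E + s / n with hE'
  have hm : c / 2 ≤ (mdE d E').im := by
    rw [G.mdE_im hd (H9.bulk_abs hbk (h3 s hs))]
    have k1 := abs_le.1 (h4 s hs)
    have k2 := Real.pi_gt_three
    nlinarith [k1.1]
  have k1 : avg (regularGraphs n d) (fun G =>
      (∑ v, if Xim G v (L / n) E' < c / 4 then (1 : ℝ) else 0) / n) ≤ ε / 2 := by
    rw [← F674.avg_WW_one (fun G v => if Xim G v (L / n) E' < c / 4 then (1 : ℝ) else 0)]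
    refine le_trans ?_ ((h1 E' (h3 s hs)).trans (min_le_right _ _))
    unfold prob
    refine avg_mono fun ω _ => ?_
    split_ifs with p1 p2
    · exact le_rfl
    · have k2 := abs_le.1 (Xim_sub_le ω (L / n) _ E' p2)
      linarith [k2.1, min_le_left (c / 4) (ε / 2)]
    · exact zero_le_one
    · exact le_rfl
  have k2 : ∀ G : SimpleGraph (Fin n), (if ∀ i, |B| + 1 < |xx E G i - s| then (1 : ℝ) else 0) ≤
      (∑ v, if Xim G v (L / n) E' < c / 4 then (1 : ℝ) else 0) / n +
        4 * L / c * ∑ i, if B < |xx E' G i| then (xx E' G i ^ 2)⁻¹ else 0 := by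
    intro G
    split_ifs with p1
    · have k3 : ∑ i, L / (xx E' G i ^ 2 + L ^ 2) ≤
          L * ∑ i, if B < |xx E' G i| then (xx E' G i ^ 2)⁻¹ else 0 := by
        rw [Finset.mul_sum]
        refine Finset.sum_le_sum fun i _ => ?_
        have p2 := p1 i
        rw [← H9.xx_shift hn] at p2
        have p3 : 0 < xx E' G i ^ 2 := sq_pos_of_ne_zero (abs_pos.1 (by
          linarith [abs_nonneg B]))
        rw [if_pos (by linarith [le_abs_self B]), ← div_eq_mul_inv]
        exact div_le_div_of_nonneg_left hL1.le p3 (by nlinarith)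
      rw [← F674.trace_eq G hn' hL1] at k3
      have k4 : (n : ℝ) ≤ (∑ v, if Xim G v (L / n) E' < c / 4 then (1 : ℝ) else 0) +
          4 / c * ∑ v, Xim G v (L / n) E' := by
        rw [Finset.mul_sum, ← Finset.sum_add_distrib]
        calc (n : ℝ) = ∑ _v : Fin n, (1 : ℝ) := by simp
          _ ≤ _ := Finset.sum_le_sum fun v _ => ?_
        have p4 := Xim_nonneg G v (show 0 < L / n by positivity) E'
        split_ifs with p5
        · have : 0 ≤ 4 / c * Xim G v (L / n) E' := by positivity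
          linarith
        · rw [zero_add, div_mul_eq_mul_div, one_le_div hc0]
          linarith
      have k5 := mul_le_mul_of_nonneg_left k3 (show 0 ≤ 4 / c by positivity)
      have k6 := div_le_div_of_nonneg_right k4 hn'.le
      rw [div_self hn'.ne', add_div, mul_div_assoc] at k6
      calc (1 : ℝ) ≤ _ := k6
        _ ≤ _ := add_le_add le_rfl (k5.trans (le_of_eq (by ring)))
    · positivity
  unfold prob
  refine (avg_mono fun G _ => (by convert k2 G)).trans ?_
  rw [avg_add, avg_const_mul]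
  have k7 := mul_le_mul_of_nonneg_left (h2 E' (h3 s hs)) (show 0 ≤ 4 * L / c by positivity)
  have k8 : 4 * L / c * (ε * c / (8 * L)) = ε / 2 := by field_simp; ring
  linarith

end Vale.Agent.N156
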