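import Vale.Agent.N156.Move
import Vale.Agent.P156W.Main

/-!
Universality along moving energies: convergence in law.
-/

open MeasureTheory ProbabilityTheory Filter Topology Finset

namespace Vale.Agent.N156

open Vale.Agent.P156 Vale.Agent.P156.H849 Vale.Agent.P156W

/-- from Laplace functionals to all linear statistics, along moving energies -/
theorem joint_move (d : ℕ) (e : ℕ → ℝ)
    (hM : ∀ f : ℝ → ℝ, Continuous f → HasCompactSupport f → (∀ x, 0 ≤ f x) →
      Tendsto (fun n => avg (regularGraphs n d) (fun G => Real.exp (-∫ x, f x ∂(Xi n d (e n) G)))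
        - ∫ w, Real.exp (-∫ x, f x ∂(XiGOE n w)) ∂(goeLaw n)) (admissible d) (𝓝 0))
    (hT : GoeTight) {m : ℕ} (f : Fin m → ℝ → ℝ) (hf : ∀ j, Continuous (f j))
    (hfc : ∀ j, HasCompactSupport (f j)) (Φ : (Fin m → ℝ) → ℝ) (hΦ : Continuous Φ)
    {C : ℝ} (hC : ∀ x, |Φ x| ≤ C) :
    Tendsto (fun n : ℕ => avgGraph n d (e n) f Φ - avgGOE n f Φ) (admissible d) (𝓝 0) := by
  classical
  have hC0 : 0 ≤ C := (abs_nonneg _).trans (hC 0)
  set g : Fin m × Bool → ℝ → ℝ := parts f with hg
  have hgc : ∀ i, Continuous (g i) := continuous_parts f hf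
  have hgs : ∀ i, HasCompactSupport (g i) := hasCompactSupport_parts f hfc
  have hg0 : ∀ i x, 0 ≤ g i x := parts_nonneg f
  let Ψ : (Fin m × Bool → ℝ) → ℝ := fun y => Φ (fun j => y (j, true) - y (j, false))
  have hΨ : Continuous Ψ := hΦ.comp (by fun_prop)
  have hΨC : ∀ y, |Ψ y| ≤ C := fun y => hC _
  -- the two averages in terms of `Ψ`
  have hAG : ∀ n X, avgGraph n d X f Φ = avg (regularGraphs n d) (fun G => Ψ (vecG n d g X G)) := by
    intro n X
    unfold avgGraph avg
    congr 1
    refine Finset.sum_congr rfl fun G _ => ?_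
    simp only [Ψ]
    congr 1
    funext j
    simp only [vecG, integral_Xi, ← Finset.sum_sub_distrib, hg, parts_sub]
  have hAW : ∀ n, avgGOE n f Φ = ∫ w, Ψ (vecW n g w) ∂(goeLaw n) := by
    intro n
    unfold avgGOE
    congr 1
    funext w
    simp only [Ψ]
    congr 1
    funext j
    simp only [vecW, integral_XiGOE, ← Finset.sum_sub_distrib, hg, parts_sub]
  -- regular graphs exist eventually
  have hne : ∀ᶠ n in admissible d, (regularGraphs n d).Nonempty := by
    have h0 := hM (fun _ => 0) continuous_const (HasCompactSupport.zero) (fun _ => le_rfl)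
    rw [Metric.tendsto_nhds] at h0
    filter_upwards [h0 (1 / 2) (by norm_num)] with n hn
    by_contra hcon
    rw [Finset.not_nonempty_iff_eq_empty] at hcon
    rw [hcon] at hn
    have : IsProbabilityMeasure (goeLaw n) := by unfold goeLaw; infer_instance
    simp only [avg, integral_zero, neg_zero, Real.exp_zero, integral_const, probReal_univ,
      smul_eq_mul, mul_one, Finset.sum_empty, Finset.card_empty, Nat.cast_zero, zero_div, zero_sub,
      Real.dist_eq, sub_zero, abs_neg, abs_one] at hn
    norm_num at hn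
  -- Laplace differences
  set L : (Fin m × Bool →₀ ℕ) → ℕ → ℝ := fun t n =>
    |avg (regularGraphs n d) (fun G => Real.exp (-∫ x, comb g t x ∂(Xi n d (e n) G)))
      - ∫ w, Real.exp (-∫ x, comb g t x ∂(XiGOE n w)) ∂(goeLaw n)| with hL
  -- reduction to a linear bound in `ε`
  suffices hmain : ∀ ε : ℝ, 0 < ε → ∀ᶠ n in admissible d,
      |avgGraph n d (e n) f Φ - avgGOE n f Φ| ≤ (4 * C + 3) * ε by
    rw [Metric.tendsto_nhds]
    intro ε hε
    have hK : 0 < 4 * C + 3 := by linarith
    filter_upwards [hmain (ε / (2 * (4 * C + 3))) (by positivity)] with n hn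
    rw [Real.dist_eq, sub_zero]
    refine lt_of_le_of_lt hn ?_
    calc (4 * C + 3) * (ε / (2 * (4 * C + 3))) = ε / 2 := by field_simp
      _ < ε := by linarith
  intro ε hε
  -- tightness of the GOE vector
  have htight : ∃ R : ℝ, ∀ᶠ n in admissible d,
      (goeLaw n).real {w | ∃ i, R < vecW n g w i} ≤ ε := by
    set N : ℝ := (Fintype.card (Fin m × Bool) : ℝ) + 1 with hN
    have hN0 : 0 < N := by positivity
    choose R hR using fun i => hT (g i) (hgc i) (hgs i) (hg0 i) (ε / N) (by positivity)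
    refine ⟨∑ i, |R i|, ?_⟩
    have hev : ∀ᶠ n in admissible d, ∀ i, (goeLaw n).real {w | R i < vecW n g w i} ≤ ε / N := by
      rw [eventually_all]
      intro i
      exact (hR i).filter_mono inf_le_left
    filter_upwards [hev] with n hn
    have : IsProbabilityMeasure (goeLaw n) := by unfold goeLaw; infer_instance
    have hsub : {w : Upper n → ℝ | ∃ i, ∑ i, |R i| < vecW n g w i} ⊆
        ⋃ i ∈ (Finset.univ : Finset (Fin m × Bool)), {w | R i < vecW n g w i} := by
      rintro w ⟨i, hi⟩
      refine Set.mem_iUnion₂.mpr ⟨i, Finset.mem_univ _, ?_⟩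
      refine lt_of_le_of_lt ((le_abs_self _).trans ?_) hi
      exact Finset.single_le_sum (f := fun i => |R i|) (fun _ _ => abs_nonneg _)
        (Finset.mem_univ i)
    refine (measureReal_mono hsub (measure_ne_top _ _)).trans ?_
    refine (measureReal_biUnion_finset_le _ _).trans ?_
    refine (Finset.sum_le_sum fun i _ => hn i).trans ?_
    rw [Finset.sum_const, nsmul_eq_mul, Finset.card_univ, ← mul_div_assoc, div_le_iff₀ hN0, hN]
    nlinarith
  obtain ⟨R, hR⟩ := htight
  obtain ⟨T, A, hA0, hcmp⟩ := laplace_compare Ψ hΨ hΨC R hε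
  have hLt : ∀ t ∈ T, ∀ᶠ n in admissible d, L t n ≤ ε / ((T.card + 1) * (A + 1)) := by
    intro t _
    have h0 := (hM (comb g t) (continuous_comb g hgc t) (hasCompactSupport_comb g hgs t)
      (comb_nonneg g hg0 t)).abs
    rw [abs_zero] at h0
    exact (h0.eventually_lt_const (by positivity)).mono fun n hn => hn.le
  have hLt' : ∀ᶠ n in admissible d, ∀ t ∈ T, L t n ≤ ε / ((T.card + 1) * (A + 1)) := by
    rw [Filter.eventually_all_finset]
    exact hLt
  filter_upwards [hR, hne, hLt'] with n hRn hnen hLn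
  have hW : IsProbabilityMeasure (goeLaw n) := by unfold goeLaw; infer_instance
  have hcW : Continuous (vecW n g) :=
    continuous_pi fun i => continuous_integral_XiGOE n (g i) (hgc i)
  have hmW : Measurable (vecW n g) := hcW.measurable
  have i1 : IsProbabilityMeasure (unifMap (regularGraphs n d) (vecG n d g (e n))) :=
    isProbabilityMeasure_unifMap _ hnen _
  have i2 : IsProbabilityMeasure ((goeLaw n).map (vecW n g)) :=
    Measure.isProbabilityMeasure_map hmW.aemeasurable
  have hmeas : MeasurableSet {y : Fin m × Bool → ℝ | ∃ i, R < y i} := by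
    have : {y : Fin m × Bool → ℝ | ∃ i, R < y i} = ⋃ i, {y | R < y i} := by ext; simp
    rw [this]
    exact MeasurableSet.iUnion fun i => measurableSet_lt measurable_const (measurable_pi_apply i)
  have key := hcmp (unifMap (regularGraphs n d) (vecG n d g (e n))) ((goeLaw n).map (vecW n g))
    (ae_unifMap _ _ fun G _ => vecG_nonneg n d g hg0 (e n) G)
    (by
      rw [ae_map_iff hmW.aemeasurable (by
        rw [show {x : Fin m × Bool → ℝ | ∀ i, 0 ≤ x i} = ⋂ i, {x | 0 ≤ x i} by ext; simp]
        exact MeasurableSet.iInter fun i => measurableSet_le measurable_const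
          (measurable_pi_apply i))]
      exact Eventually.of_forall fun w => vecW_nonneg n g hg0 w)
    (by
      rw [map_measureReal_apply hmW hmeas]
      exact hRn)
  rw [integral_unifMap, integral_map hmW.aemeasurable hΨ.aestronglyMeasurable, ← hAG n (e n),
    ← hAW n] at key
  have hsum : ∑ t ∈ T, |lapN (unifMap (regularGraphs n d) (vecG n d g (e n))) t -
      lapN ((goeLaw n).map (vecW n g)) t| = ∑ t ∈ T, L t n := by
    refine Finset.sum_congr rfl fun t _ => ?_
    simp only [hL, lapN]
    rw [integral_unifMap, integral_map hmW.aemeasurable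
      (Continuous.aestronglyMeasurable (by fun_prop))]
    simp only [sum_vecG, sum_vecW]
  rw [hsum] at key
  have h3 : ∑ t ∈ T, L t n ≤ T.card * (ε / ((T.card + 1) * (A + 1))) := by
    rw [← nsmul_eq_mul]
    exact Finset.sum_le_card_nsmul _ _ _ fun t ht => hLn t ht
  have h4 : A * ∑ t ∈ T, L t n ≤ ε := by
    refine (mul_le_mul_of_nonneg_left h3 hA0).trans ?_
    rw [← mul_div_assoc, ← mul_div_assoc, div_le_iff₀ (by positivity)]
    have : (0 : ℝ) ≤ T.card := Nat.cast_nonneg _
    nlinarith [mul_nonneg this hA0]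
  linarith


theorem tendsto_adm (d : ℕ) :
    Tendsto (Subtype.val : Adm d → ℕ) (comap Subtype.val atTop) (admissible d) :=
  tendsto_inf.2 ⟨tendsto_comap, tendsto_principal.2 (Eventually.of_forall fun n => n.2)⟩

/-- The data of the bulk limit. -/
structure Lim {Ω : Type} [MeasurableSpace Ω] (P : Measure Ω) [IsProbabilityMeasure P]
    (Ξ : Ω → LF) : Prop where
  meas : Measurable Ξ
  point : ∀ ω, ∃ (κ : Set ℕ) (z : κ → ℝ), (Ξ ω).meas = Measure.sum fun k => Measure.dirac (z k)
  goe : TendstoInDistribution goePt atTop Ξ goeLaw P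
  move : ∀ d : ℕ, 3 ≤ d → ∀ E : ℝ, |E| < 2 * Real.sqrt (d - 1) → ∀ e : ℕ → ℝ,
    Tendsto e atTop (𝓝 E) → TendstoInDistribution (fun n : Adm d => graphPt n d (e n))
      (comap Subtype.val atTop) Ξ (fun n => graphLaw n d) P

theorem exists_lim : ∃ (Ω : Type) (_ : MeasurableSpace Ω) (P : Measure Ω)
    (_ : IsProbabilityMeasure P) (Ξ : Ω → LF), Lim P Ξ := by
  obtain ⟨P, Ξ0, h⟩ := H9.goeBulk_exists
  have := h.prob
  let Ξ : (ℕ → EReal) → LF := fun ω => ⟨Ξ0 ω, h.locFin ω⟩
  have hΞ : Measurable Ξ := meas_lf h.meas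
  refine ⟨_, inferInstance, P, h.prob, Ξ, hΞ, h.point, tid meas_goe hΞ h.lim,
    fun d hd E hE e he => ?_⟩
  refine tid (fun n => measurable_from_top) hΞ fun m f hf hc Φ hΦ hC => ?_
  have e1 : ∀ n : Adm d, ∫ x, Φ (fun j => ∫ t, f j t ∂(graphPt n d (e n) x).meas) ∂graphLaw n d =
      avgGraph n d (e n) f Φ := fun n =>
    int_graph n d fun G => Φ fun j => ∫ t, f j t ∂Xi n d (e n) G
  simp only [e1]
  obtain ⟨C, hC'⟩ := hC
  have h1 := joint_move d e (lapl_tendsto hd hE (he.mono_left inf_le_left)) H625.goeTight f hf hc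
    Φ hΦ hC'
  have h2 := h1.add ((h.lim m f hf hc Φ hΦ ⟨C, hC'⟩).mono_left (inf_le_left : admissible d ≤ atTop))
  simp only [sub_add_cancel, zero_add] at h2
  exact h2.comp (tendsto_adm d)

end Vale.Agent.N156
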