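import Vale.Agent.N156.Holes

/-!
The Kesten-McKay distribution function; laws determined by their stop-loss transforms.
-/

open MeasureTheory ProbabilityTheory Filter Topology Set
open scoped BoundedContinuousFunction

namespace Vale.Agent.N156

open Vale.Agent.P156

/-- the distribution function -/
noncomputable def cdf (d : ℕ) (x : ℝ) : ℝ := ∫ t in Iic x, rho d t

section km

variable {d : ℕ}

theorem rho_eq (hd : 3 ≤ d) (t : ℝ) : rho d t =
    d * Real.sqrt (4 * (d - 1) - t ^ 2) / (2 * Real.pi * max (d ^ 2 - t ^ 2) 1) := by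
  unfold rho
  by_cases h : t ^ 2 < 4 * ((d : ℝ) - 1)
  · rw [max_eq_left (H801.dsq_sub_pos hd h)]
  · rw [Real.sqrt_eq_zero_of_nonpos (by linarith), mul_zero, zero_div, zero_div]

theorem rho_cont (hd : 3 ≤ d) : Continuous (rho d) := by
  rw [funext (rho_eq hd)]
  refine Continuous.div (by fun_prop) (by fun_prop) fun t => ?_
  have := Real.pi_pos
  have := lt_of_lt_of_le one_pos (le_max_right ((d : ℝ) ^ 2 - t ^ 2) 1)
  positivity

theorem rho_nonneg (hd : 3 ≤ d) (t : ℝ) : 0 ≤ rho d t := by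
  rw [rho_eq hd]
  have := Real.pi_pos
  have := lt_of_lt_of_le one_pos (le_max_right ((d : ℝ) ^ 2 - t ^ 2) 1)
  positivity

theorem rho_zero (hd : 3 ≤ d) {t : ℝ} (h : 2 * Real.sqrt ((d : ℝ) - 1) ≤ |t|) : rho d t = 0 := by
  have hd' : (3 : ℝ) ≤ d := by exact_mod_cast hd
  have h1 := pow_le_pow_left₀ (by positivity) h 2
  rw [mul_pow, Real.sq_sqrt (by linarith), sq_abs] at h1
  unfold rho
  rw [Real.sqrt_eq_zero_of_nonpos (by linarith), mul_zero, zero_div]

theorem rho_int (hd : 3 ≤ d) : Integrable (rho d) :=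
  (rho_cont hd).integrable_of_hasCompactSupport (HasCompactSupport.intro
    (isCompact_Icc (a := -(2 * Real.sqrt ((d : ℝ) - 1))) (b := 2 * Real.sqrt ((d : ℝ) - 1)))
    fun x hx => rho_zero hd (by
      rw [mem_Icc, ← abs_le, not_le] at hx
      exact hx.le))

theorem cdf_sub (hd : 3 ≤ d) (a b : ℝ) : cdf d b - cdf d a = ∫ t in a..b, rho d t :=
  intervalIntegral.integral_Iic_sub_Iic (rho_int hd).integrableOn (rho_int hd).integrableOn

theorem cdf_deriv (hd : 3 ≤ d) (x : ℝ) : HasDerivAt (cdf d) (rho d x) x := by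
  have e : cdf d = fun b => cdf d 0 + ∫ t in (0 : ℝ)..b, rho d t := funext fun b => by
    rw [← cdf_sub hd]
    ring
  rw [e]
  exact ((rho_cont hd).integral_hasStrictDerivAt 0 x).hasDerivAt.const_add _

theorem cdf_mono (hd : 3 ≤ d) : Monotone (cdf d) := fun a b h => by
  have := intervalIntegral.integral_nonneg (μ := volume) h fun t _ => rho_nonneg hd t
  linarith [cdf_sub hd a b]

theorem cdf_low (hd : 3 ≤ d) {x : ℝ} (h : x ≤ -(2 * Real.sqrt ((d : ℝ) - 1))) : cdf d x = 0 :=
  setIntegral_eq_zero_of_forall_eq_zero fun t ht =>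
    rho_zero hd (le_abs.2 (Or.inr (by linarith [mem_Iic.1 ht])))

theorem cdf_top (hd : 3 ≤ d) : cdf d (2 * Real.sqrt ((d : ℝ) - 1)) = 1 := by
  have hd' : (3 : ℝ) ≤ d := by exact_mod_cast hd
  set Q := Real.sqrt ((d : ℝ) - 1) with hQ
  have hQ2 : Q ^ 2 = (d : ℝ) - 1 := Real.sq_sqrt (by linarith)
  have hQp : 0 < Q := Real.sqrt_pos.2 (by linarith)
  have hsq : ∀ x ∈ Ioo (-(2 * Q)) (2 * Q), x ^ 2 < 4 * ((d : ℝ) - 1) := fun x hx =>
    H801.bulk_sq hd (abs_lt.2 hx)
  have hb : Tendsto (H801.prim d) (𝓝[<] (2 * Q)) (𝓝 (Real.pi / 2)) := by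
    have k1 : Tendsto (fun x : ℝ => Real.arcsin (x / (2 * Q))) (𝓝[<] (2 * Q))
        (𝓝 (Real.pi / 2)) := by
      have : Continuous fun x : ℝ => Real.arcsin (x / (2 * Q)) :=
        Real.continuous_arcsin.comp (by fun_prop)
      have h2 := (this.tendsto (2 * Q)).mono_left (nhdsWithin_le_nhds (s := Iio (2 * Q)))
      rwa [div_self (by positivity), Real.arcsin_one] at h2
    have k2 : Tendsto (fun x : ℝ => (d : ℝ) * Real.sqrt (4 * ((d : ℝ) - 1) - x ^ 2))
        (𝓝[<] (2 * Q)) (𝓝[>] 0) := by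
      refine tendsto_nhdsWithin_iff.2 ⟨?_, ?_⟩
      · have : Continuous fun x : ℝ => (d : ℝ) * Real.sqrt (4 * ((d : ℝ) - 1) - x ^ 2) := by
          fun_prop
        have h2 := (this.tendsto (2 * Q)).mono_left (nhdsWithin_le_nhds (s := Iio (2 * Q)))
        rwa [show 4 * ((d : ℝ) - 1) - (2 * Q) ^ 2 = 0 by rw [mul_pow, hQ2]; ring, Real.sqrt_zero,
          mul_zero] at h2
      · filter_upwards [Ioo_mem_nhdsLT (show -(2 * Q) < 2 * Q by linarith)] with x hx
        exact mul_pos (by linarith) (Real.sqrt_pos.2 (by linarith [hsq x hx]))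
    have k3 : Tendsto (fun x : ℝ => ((d : ℝ) - 2) * x) (𝓝[<] (2 * Q))
        (𝓝 (((d : ℝ) - 2) * (2 * Q))) :=
      ((continuous_const.mul continuous_id).tendsto (2 * Q)).mono_left nhdsWithin_le_nhds
    have k4 := Tendsto.pos_mul_atTop (mul_pos (by linarith) (by linarith)) k3
      (tendsto_inv_nhdsGT_zero.comp k2)
    have k5 := (Real.tendsto_arctan_atTop.mono_right nhdsWithin_le_nhds).comp k4
    have k6 := (k1.const_mul ((d : ℝ) / 2)).sub (k5.const_mul (((d : ℝ) - 2) / 2))
    rw [show (d : ℝ) / 2 * (Real.pi / 2) - ((d : ℝ) - 2) / 2 * (Real.pi / 2) = Real.pi / 2 by ring]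
      at k6
    exact k6
  have ha : Tendsto (H801.prim d) (𝓝[>] (-(2 * Q))) (𝓝 (-(Real.pi / 2))) := by
    have k1 : Tendsto (fun x : ℝ => -x) (𝓝[>] (-(2 * Q))) (𝓝[<] (2 * Q)) := by
      simpa using tendsto_neg_nhdsGT (a := -(2 * Q))
    refine (hb.comp k1).neg.congr fun x => ?_
    show -H801.prim d (-x) = H801.prim d x
    unfold H801.prim
    rw [neg_div, Real.arcsin_neg, mul_neg, neg_sq, mul_neg, neg_div, Real.arctan_neg]
    ring
  have k := intervalIntegral.integral_eq_sub_of_hasDerivAt_of_tendsto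
    (f' := fun x => Real.pi * rho d x) (show -(2 * Q) < 2 * Q by linarith)
    (fun x hx => by
      rw [H801.pi_mul_rho hd (hsq x hx)]
      exact H801.hasDerivAt_prim hd (hsq x hx))
    ((continuous_const.mul (rho_cont hd)).intervalIntegrable _ _) ha hb
  rw [intervalIntegral.integral_const_mul, ← cdf_sub hd, cdf_low hd le_rfl] at k
  refine mul_left_cancel₀ Real.pi_ne_zero ?_
  linarith

theorem cdf_mem (hd : 3 ≤ d) (x : ℝ) : cdf d x ∈ Icc (0 : ℝ) 1 := by
  refine ⟨setIntegral_nonneg measurableSet_Iic fun t _ => rho_nonneg hd t, ?_⟩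
  rcases le_total x (2 * Real.sqrt ((d : ℝ) - 1)) with h | h
  · exact (cdf_mono hd h).trans_eq (cdf_top hd)
  · have k := cdf_sub hd (2 * Real.sqrt ((d : ℝ) - 1)) x
    rw [intervalIntegral.integral_of_le h, setIntegral_eq_zero_of_forall_eq_zero
      fun t ht => rho_zero hd (ht.1.le.trans (le_abs_self t)), cdf_top hd] at k
    linarith

theorem cdf_surj (hd : 3 ≤ d) {u : ℝ} (hu : u ∈ Ioo (0 : ℝ) 1) :
    ∃ E, |E| < 2 * Real.sqrt ((d : ℝ) - 1) ∧ cdf d E = u := by
  have hc : Continuous (cdf d) := continuous_iff_continuousAt.2 fun x =>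
    (cdf_deriv hd x).continuousAt
  have h0 := zero_bulk hd
  rw [abs_zero] at h0
  have := intermediate_value_Ioo (show -(2 * Real.sqrt ((d : ℝ) - 1)) ≤
    2 * Real.sqrt ((d : ℝ) - 1) by linarith) hc.continuousOn
  rw [cdf_low hd le_rfl, cdf_top hd] at this
  obtain ⟨E, h1, h2⟩ := this hu
  exact ⟨E, abs_lt.2 h1, h2⟩

theorem cdf_lim (hd : 3 ≤ d) (E r : ℝ) :
    Tendsto (fun n : ℕ => n * (cdf d (E + r / n) - cdf d E)) atTop (𝓝 (rho d E * r)) := by
  have h := ((cdf_deriv hd E).hasFDerivAt.lim_real r).comp tendsto_natCast_atTop_atTop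
  simp only [ContinuousLinearMap.toSpanSingleton_apply, smul_eq_mul] at h
  rw [mul_comm]
  refine h.congr fun n => ?_
  simp [div_eq_inv_mul]

theorem cdf_strict (hd : 3 ≤ d) {E x : ℝ} (hE : |E| < 2 * Real.sqrt ((d : ℝ) - 1)) (h : E < x) :
    cdf d E < cdf d x := by
  have k1 := (cdf_lim hd E (x - E)).eventually (eventually_gt_nhds
    (mul_pos (G.rho_pos' hd hE) (sub_pos.2 h)))
  obtain ⟨n, h1, h2⟩ := (k1.and (eventually_ge_atTop 1)).exists
  have h3 : (1 : ℝ) ≤ n := by exact_mod_cast h2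
  have h4 := (pos_iff_pos_of_mul_pos h1).1 (by linarith)
  have h5 : (x - E) / n ≤ x - E := div_le_self (by linarith) h3
  linarith [cdf_mono hd (show E + (x - E) / n ≤ x by linarith)]

end km

/-- `ν` is a law on the half line with stop-loss transform `H` -/
def IsSL (H : ℝ → ℝ) (ν : Measure ℝ) : Prop :=
  ν (Iio 0) = 0 ∧ ∀ s, 0 ≤ s → ∫ x, max (x - s) 0 ∂ν = H s

/-- truncated stop-loss function -/
noncomputable def slb (s R : ℝ) : ℝ →ᵇ ℝ :=
  BoundedContinuousFunction.mkOfBound ⟨fun x => max (x - s) 0 - max (x - (s + |R|)) 0, by fun_prop⟩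
    |R| fun x y => by
      have := abs_nonneg R
      simp only [ContinuousMap.coe_mk, Real.dist_eq, abs_le, max_def]
      split_ifs <;> constructor <;> linarith

theorem slb_apply (s : ℝ) {R : ℝ} (hR : 0 ≤ R) (x : ℝ) :
    slb s R x = max (x - s) 0 - max (x - (s + R)) 0 := by
  show max (x - s) 0 - max (x - (s + |R|)) 0 = _
  rw [abs_of_nonneg hR]

theorem sl_int {ν : Measure ℝ} [IsFiniteMeasure ν] (h : Integrable (fun x => max x 0) ν) {s : ℝ}
    (hs : 0 ≤ s) : Integrable (fun x => max (x - s) 0) ν :=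
  h.mono' (by fun_prop) (Eventually.of_forall fun x => by
    rw [Real.norm_eq_abs, abs_of_nonneg (le_max_right _ _)]
    exact max_le_max (by linarith) le_rfl)

theorem IsSL.unique {H : ℝ → ℝ} (h0 : H 0 ≠ 0) {ν ν' : Measure ℝ} [IsProbabilityMeasure ν]
    [IsProbabilityMeasure ν'] (h : IsSL H ν) (h' : IsSL H ν') : ν = ν' := by
  have key : ∀ (m : Measure ℝ) [IsProbabilityMeasure m], IsSL H m → ∀ s, 0 ≤ s →
      Tendsto (fun k => (H s - H (s + sc k)) / sc k) atTop (𝓝 (m.real (Ioi s))) := by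
    intro m _ hm s hs
    have i0 : Integrable (fun x => max x 0) m := by
      by_contra hc
      have := hm.2 0 le_rfl
      simp only [sub_zero] at this
      exact h0 (this.symm.trans (integral_undef hc))
    have e : ∀ k, (H s - H (s + sc k)) / sc k =
        ∫ x, (max (x - s) 0 - max (x - (s + sc k)) 0) / sc k ∂m := fun k => by
      have := sc_pos k
      rw [integral_div, integral_sub (sl_int i0 hs) (sl_int i0 (by linarith)), hm.2 s hs,
        hm.2 _ (by linarith)]
    simp only [e]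
    rw [← integral_indicator_one measurableSet_Ioi]
    refine tendsto_integral_of_dominated_convergence (fun _ => (1 : ℝ))
      (fun k => Continuous.aestronglyMeasurable (by fun_prop)) (integrable_const _)
      (fun k => Eventually.of_forall fun x => ?_)
      (Eventually.of_forall fun x => tendsto_const_nhds.congr' ?_)
    · have := sc_pos k
      rw [Real.norm_eq_abs, abs_div, abs_of_pos this, div_le_one this, abs_le, max_def, max_def]
      split_ifs <;> constructor <;> linarith
    · by_cases hx : x ∈ Ioi s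
      · filter_upwards [sc_ev (sub_pos.2 hx)] with k hk
        have := sc_pos k
        rw [indicator_of_mem hx, max_eq_left (by linarith), max_eq_left (by linarith),
          eq_div_iff this.ne']
        simp
      · refine Eventually.of_forall fun k => ?_
        have := sc_pos k
        have h3 : x ≤ s := not_lt.1 hx
        simp only [indicator_of_notMem hx, max_eq_right (show x - s ≤ 0 by linarith),
          max_eq_right (show x - (s + sc k) ≤ 0 by linarith), sub_zero, zero_div]
  refine Measure.ext_of_Iic ν ν' fun a => ?_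
  rcases lt_or_ge a 0 with ha | ha
  · rw [measure_mono_null (Iic_subset_Iio.2 ha) h.1, measure_mono_null (Iic_subset_Iio.2 ha) h'.1]
  · have := tendsto_nhds_unique (key ν h a ha) (key ν' h' a ha)
    rw [← compl_Ioi, prob_compl_eq_one_sub measurableSet_Ioi,
      prob_compl_eq_one_sub measurableSet_Ioi, (measureReal_eq_measureReal_iff).1 this]

section lim

variable {ι : Type*} {l : Filter ι} {μ : ι → ProbabilityMeasure ℝ} {H : ℝ → ℝ}

theorem isSL_of_cluster (h0 : ∀ i, (μ i : Measure ℝ) (Iio 0) = 0)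
    (hi : ∀ i, Integrable (fun x => max x 0) (μ i : Measure ℝ))
    (h : ∀ s, 0 ≤ s → Tendsto (fun i => ∫ x, max (x - s) 0 ∂(μ i : Measure ℝ)) l (𝓝 (H s)))
    (hH : Tendsto H atTop (𝓝 0)) {ν : ProbabilityMeasure ℝ} (hν : MapClusterPt ν l μ) :
    IsSL H ν := by
  obtain ⟨𝒰, h1, h2⟩ := mapClusterPt_iff_ultrafilter.1 hν
  refine ⟨?_, fun s hs => ?_⟩
  · have := ProbabilityMeasure.le_liminf_measure_open_of_tendsto h2 (isOpen_Iio (a := (0 : ℝ)))
    simpa [h0] using this
  · have k1 : ∀ R, 0 ≤ R → ∫ x, slb s R x ∂(ν : Measure ℝ) = H s - H (s + R) := fun R hR => by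
      refine tendsto_nhds_unique
        (ProbabilityMeasure.tendsto_iff_forall_integral_tendsto.1 h2 (slb s R)) ?_
      refine (((h s hs).sub (h (s + R) (by linarith))).mono_left h1).congr fun i => ?_
      rw [← integral_sub (sl_int (hi i) hs) (sl_int (hi i) (by linarith))]
      simp only [slb_apply s hR]
    have k2 : Tendsto (fun k : ℕ => ∫ x, slb s k x ∂(ν : Measure ℝ)) atTop (𝓝 (H s)) := by
      simp only [fun k : ℕ => k1 k (Nat.cast_nonneg k)]
      simpa using (hH.comp (tendsto_atTop_add_const_left _ s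
        tendsto_natCast_atTop_atTop)).const_sub (H s)
    have k3 : ∀ x, Monotone fun k : ℕ => slb s k x := fun x a b hab => by
      have : (a : ℝ) ≤ b := by exact_mod_cast hab
      simp only [slb_apply s (Nat.cast_nonneg _)]
      linarith [max_le_max (show x - (s + b) ≤ x - (s + a) by linarith) (le_refl (0 : ℝ))]
    have k4 : ∀ x, Tendsto (fun k : ℕ => slb s k x) atTop (𝓝 (max (x - s) 0)) := fun x => by
      refine tendsto_const_nhds.congr' ?_
      filter_upwards [tendsto_natCast_atTop_atTop.eventually_ge_atTop x] with k hk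
      rw [slb_apply s (Nat.cast_nonneg _), max_eq_right (a := x - (s + k)) (by linarith), sub_zero]
    have k5 : ∀ k : ℕ, 0 ≤ᵐ[(ν : Measure ℝ)] fun x => slb s k x := fun k =>
      Eventually.of_forall fun x => by
        have := (Nat.cast_nonneg k : (0 : ℝ) ≤ k)
        show 0 ≤ slb s k x
        rw [slb_apply s this]
        linarith [max_le_max (show x - (s + k) ≤ x - s by linarith) (le_refl (0 : ℝ))]
    have k6 : Integrable (fun x => max (x - s) 0) (ν : Measure ℝ) :=
      integrable_of_tendsto (Eventually.of_forall k4)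
        (fun k => (slb s k).continuous.aestronglyMeasurable) (by
          have e : ∀ k : ℕ, ∫⁻ x, ‖slb s k x‖ₑ ∂(ν : Measure ℝ) =
              ENNReal.ofReal (∫ x, slb s k x ∂(ν : Measure ℝ)) := fun k => by
            rw [ofReal_integral_eq_lintegral_ofReal ((slb s k).integrable _) (k5 k)]
            refine lintegral_congr_ae ((k5 k).mono fun x hx => Real.enorm_eq_ofReal hx)
          simp only [e]
          rw [(ENNReal.tendsto_ofReal k2).liminf_eq]
          exact ENNReal.ofReal_ne_top)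
    exact tendsto_nhds_unique (integral_tendsto_of_tendsto_of_monotone
      (fun k => (slb s k).integrable _) k6 (Eventually.of_forall k3) (Eventually.of_forall k4)) k2

theorem compact_range (h0 : ∀ i, (μ i : Measure ℝ) (Iio 0) = 0)
    (hi : ∀ i, Integrable (fun x => max x 0) (μ i : Measure ℝ))
    (hb : ∀ i, ∫ x, max x 0 ∂(μ i : Measure ℝ) ≤ 2) : IsCompact (closure (range μ)) := by
  refine isCompact_closure_of_isTightMeasureSet
    (isTightMeasureSet_iff_exists_isCompact_measure_compl_le.2 fun ε hε => ?_)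
  obtain ⟨r, hr0, hr⟩ : ∃ r : ℝ, 0 < r ∧ ENNReal.ofReal r ≤ ε := by
    obtain ⟨r, h1, h2⟩ := ENNReal.lt_iff_exists_real_btwn.1 hε
    exact ⟨r, ENNReal.ofReal_pos.1 h2.1, h2.2.le⟩
  refine ⟨Icc 0 (2 / r), isCompact_Icc, ?_⟩
  rintro _ ⟨_, ⟨i, rfl⟩, rfl⟩
  have k1 := mul_meas_ge_le_integral_of_nonneg (μ := (μ i : Measure ℝ))
    (Eventually.of_forall fun x => le_max_right x 0) (hi i) (2 / r)
  have k2 : (μ i : Measure ℝ).real {x | 2 / r ≤ max x 0} ≤ r := by
    have := k1.trans (hb i)
    rw [div_mul_eq_mul_div, div_le_iff₀ hr0] at this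
    linarith
  calc (μ i : Measure ℝ) (Icc 0 (2 / r))ᶜ
      ≤ (μ i : Measure ℝ) (Iio 0 ∪ {x | 2 / r ≤ max x 0}) := measure_mono fun x hx => by
        rw [mem_compl_iff, mem_Icc, not_and_or, not_le, not_le] at hx
        exact hx.imp id fun h => h.le.trans (le_max_left _ _)
    _ ≤ _ := measure_union_le _ _
    _ ≤ ε := by
        rw [h0, zero_add, ← ofReal_measureReal]
        exact (ENNReal.ofReal_le_ofReal k2).trans hr

end lim

end Vale.Agent.N156
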