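import Vale.Agent.N156.Gaps

/-!
The mean nearest neighbour spacing law.
-/

open MeasureTheory ProbabilityTheory Filter Topology Set
open scoped BoundedContinuousFunction

namespace Vale.Agent.N156

open Vale.Agent.P156 Vale.Agent.P156W

variable {d n : ℕ}

/-- the mean empirical law of the spacings -/
noncomputable def spM (n d : ℕ) : Measure ℝ :=
  H849.unifMap (regularGraphs n d ×ˢ Finset.range (n - 1)) fun p => unf d p.1 (p.2 + 1) - unf d p.1 p.2

theorem int_spM (hn : 0 < n) (Ψ : ℝ → ℝ) : ∫ x, Ψ x ∂spM n d = avg (regularGraphs n d) fun G =>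
    (∑ k ∈ Finset.range (n - 1), Ψ (unf d G (k + 1) - unf d G k)) / (n - 1) := by
  unfold spM
  rw [H849.integral_unifMap]
  unfold avg
  rw [Finset.sum_product, Finset.card_product, Finset.card_range, ← Finset.sum_div, div_div,
    Nat.cast_mul, Nat.cast_pred hn, mul_comm]

theorem integrable_spM (Ψ : ℝ → ℝ) : Integrable Ψ (spM n d) := by
  unfold spM H849.unifMap
  refine integrable_finsetSum_measure.2 fun p hp => (integrable_dirac (by finiteness)).smul_measure
    (ENNReal.inv_ne_top.2 ?_)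
  exact_mod_cast (Finset.card_pos.2 ⟨p, hp⟩).ne'

theorem spM_neg (hd : 3 ≤ d) : spM n d (Iio 0) = 0 := by
  have : ∀ᵐ y ∂spM n d, 0 ≤ y := H849.ae_unifMap _ _ fun p hp => by
    have h1 := Finset.mem_range.1 (Finset.mem_product.1 hp).2
    rw [unf_eq, unf_eq, ← mul_sub]
    exact mul_nonneg (Nat.cast_nonneg _) (sub_nonneg.2 (zs_mono hd _ _ _ (by omega) (by omega)))
  simp only [ae_iff, not_le] at this
  exact this

/-- the same, as a probability measure -/
noncomputable def spP (hd : 3 ≤ d) (n : Adm d) : ProbabilityMeasure ℝ :=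
  ⟨spM n d, H849.isProbabilityMeasure_unifMap _
    ((H144.regularGraphs_nonempty n.2.1 n.2.2).product
      ⟨0, Finset.mem_range.2 (by have := n.2.1; omega)⟩) _⟩

theorem sl_eq (hd : 3 ≤ d) (hn : d < n) {s : ℝ} (hs : 0 ≤ s) :
    ∫ x, max (x - s) 0 ∂spM n d = n / (n - 1) *
      ∫ u in Icc (0 : ℝ) 1, prob (regularGraphs n d) fun G => Hole d G u (s / n) := by
  have h0 : 0 < n := by omega
  have h1 : (0 : ℝ) < n := by exact_mod_cast h0
  have e : ∫ u in Icc (0 : ℝ) 1, (prob (regularGraphs n d) fun G => Hole d G u (s / n)) =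
      avg (regularGraphs n d) fun G => ∫ u in Icc (0 : ℝ) 1, gind d G (s / n) u := by
    simp only [← avg_gind hd (show 0 ≤ s / n by positivity)]
    unfold avg
    rw [integral_div, integral_finsetSum _ fun G _ => (gind_int G _).integrableOn]
  rw [int_spM h0, e, ← H801.avg_const_mul]
  congr 1
  funext G
  rw [← sum_gap hd h0 G hs]
  field_simp

theorem meas_hole (hd : 3 ≤ d) {r : ℝ} (hr : 0 ≤ r) : AEStronglyMeasurable
    (fun u => prob (regularGraphs n d) fun G => Hole d G u r) (volume.restrict (Icc 0 1)) := by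
  simp only [← avg_gind hd hr]
  unfold avg
  exact ((integrable_finsetSum _ fun G _ =>
    (gind_int G _).integrableOn).div_const _).aestronglyMeasurable

theorem sl_le (hd : 3 ≤ d) (hn : d < n) : ∫ x, max x 0 ∂spM n d ≤ 2 := by
  have h := sl_eq hd hn le_rfl
  simp only [sub_zero] at h
  have h1 : (3 : ℝ) < n := by exact_mod_cast hd.trans_lt hn
  have h2 : ∫ u in Icc (0 : ℝ) 1, (prob (regularGraphs n d) fun G => Hole d G u (0 / n)) ≤
      ∫ _u in Icc (0 : ℝ) 1, (1 : ℝ) := integral_mono_of_nonneg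
    (Eventually.of_forall fun u => H801.prob_nonneg _ _) (integrable_const _)
    (Eventually.of_forall fun u => H801.prob_le_one _ _)
  have h3 : (n : ℝ) / (n - 1) ≤ 2 := by
    rw [div_le_iff₀ (by linarith)]
    linarith
  rw [h]
  refine (mul_le_mul_of_nonneg_left h2 (div_nonneg (by linarith) (by linarith))).trans ?_
  simpa using h3

variable {Ω : Type} [MeasurableSpace Ω] {P : Measure Ω} [IsProbabilityMeasure P] {Ξ : Ω → LF}

theorem Lim.sl_lim (h : Lim P Ξ) (hd : 3 ≤ d) (s : ℝ) (hs : 0 ≤ s) :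
    Tendsto (fun n : Adm d => ∫ x, max (x - s) 0 ∂(spP hd n : Measure ℝ))
      (comap Subtype.val atTop) (𝓝 (holeP P Ξ s)) := by
  have k1 := tendsto_integral_filter_of_dominated_convergence (μ := volume.restrict (Icc 0 1))
    (l := comap (Subtype.val : Adm d → ℕ) atTop)
    (F := fun n u => prob (regularGraphs n d) fun G => Hole d G u (s / n))
    (f := fun _ => holeP P Ξ s) (fun _ => (1 : ℝ))
    (Eventually.of_forall fun n => meas_hole hd (by positivity))
    (Eventually.of_forall fun n => Eventually.of_forall fun u => by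
      rw [Real.norm_eq_abs, abs_of_nonneg (H801.prob_nonneg _ _)]
      exact H801.prob_le_one _ _) (integrable_const _) (by
      rw [← Measure.restrict_congr_set Ioo_ae_eq_Icc]
      exact (ae_restrict_iff' measurableSet_Ioo).2 (Eventually.of_forall fun u hu =>
        h.hole_ev hd hu s))
  have k2 : Tendsto (fun n : ℕ => (n : ℝ) / (n - 1)) atTop (𝓝 1) := by
    simpa [sub_eq_add_neg] using tendsto_natCast_div_add_atTop (-1 : ℝ)
  have k3 := (k2.comp (tendsto_comap (f := (Subtype.val : Adm d → ℕ)))).mul k1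
  simp only [integral_const, Measure.restrict_apply_univ, Measure.real, Real.volume_Icc, sub_zero,
    ENNReal.ofReal_one, ENNReal.toReal_one, one_smul, one_mul] at k3
  exact k3.congr fun n => (sl_eq hd n.2.1 hs).symm

theorem Lim.spacing (h : Lim P Ξ) : ∃ ν : Measure ℝ, IsProbabilityMeasure ν ∧ ν (Iio 0) = 0 ∧
    (∀ s, 0 ≤ s → ∫ x, max (x - s) 0 ∂ν = P.real {ω | (Ξ ω).meas (Ioc 0 s) = 0}) ∧
    ∀ d : ℕ, 3 ≤ d → ∀ φ : ℝ →ᵇ ℝ,
      Tendsto (fun n : Adm d => ∫ x, (∑ k ∈ Finset.range (n - 1),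
        φ (unf d x.G (k + 1) - unf d x.G k)) / (n - 1) ∂graphLaw n d)
        (comap Subtype.val atTop) (𝓝 (∫ s, φ s ∂ν)) := by
  have cl : ∀ {d : ℕ} (hd : 3 ≤ d) {ν : ProbabilityMeasure ℝ},
      MapClusterPt ν (comap Subtype.val atTop) (spP hd) → IsSL (holeP P Ξ) ν := fun hd _ hν =>
    isSL_of_cluster (μ := spP hd) (fun _ => spM_neg hd) (fun _ => integrable_spM _) (h.sl_lim hd) h.hole_zero hν
  have cp : ∀ {d : ℕ} (hd : 3 ≤ d), IsCompact (closure (range (spP hd))) := fun hd =>
    compact_range (μ := spP hd) (fun _ => spM_neg hd) (fun _ => integrable_spM _) fun n => sl_le hd n.2.1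
  have mem : ∀ {d : ℕ} (hd : 3 ≤ d), ∀ᶠ n in comap Subtype.val atTop,
      spP hd n ∈ closure (range (spP hd)) := fun hd =>
    Eventually.of_forall fun n => subset_closure (mem_range_self n)
  have := adm_neBot 3
  obtain ⟨ν, -, hν⟩ := (cp le_rfl).exists_mapClusterPt (f := comap Subtype.val atTop)
    (u := spP le_rfl) (le_principal_iff.2 (mem_map.2 (mem le_rfl)))
  have h0 : holeP P Ξ 0 ≠ 0 := by simp [holeP]
  refine ⟨ν, inferInstance, (cl _ hν).1, (cl _ hν).2, fun d hd φ => ?_⟩
  have k := (cp hd).tendsto_nhds_of_unique_mapClusterPt (y := ν) (mem hd) fun ν' _ h' =>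
    ProbabilityMeasure.toMeasure_injective ((cl hd h').unique h0 (cl _ hν))
  refine (ProbabilityMeasure.tendsto_iff_forall_integral_tendsto.1 k φ).congr fun n => ?_
  exact (int_spM ((Nat.zero_le _).trans_lt n.2.1) φ).trans (int_graph n d fun G =>
    (∑ k ∈ Finset.range (n - 1), φ (unf d G (k + 1) - unf d G k)) / (n - 1)).symm

end Vale.Agent.N156
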