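import Vale.Agent.P156.H849.Fixed

/-!
Universality along moving energies: Laplace functionals.
-/

open MeasureTheory Filter Topology Matrix Finset

namespace Vale.Agent.N156

open Vale.Agent.P156 Vale.Agent.P156.H9
open Vale.Agent.P156.FE (Bulk SpecEv SpecMic)
open Vale.Agent.P156.H942 (Sel mu mu_le mu_compl exists_inv_le inv_pos' admissible_le_atTop)
open Vale.Agent.P156.H801 (avg_mono avg_const_mul avg_sub)

theorem specEv {d : ℕ} {a b : ℝ} (hB : Bulk d a b) : SpecEv d a b :=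
  FE.specEv_of hB (FE.specOS1 hB) (H849.specBS1 hB)

/-- small dilations and translations of a test function -/
theorem wiggle {f : ℝ → ℝ} (hf : Continuous f) (hcs : HasCompactSupport f) {c : ℝ} (hc : 0 < c) :
    ∃ B : ℝ, ∀ ε > 0, ∃ κ > 0, ∀ r r' s x : ℝ, |r - c| ≤ κ → |r' - c| ≤ κ → |s| ≤ κ →
      |f (r' * (x - s)) - f (r * x)| ≤ ε * (if |x| ≤ B then 1 else 0) := by
  obtain ⟨R, hR, hRf⟩ := hcs.exists_pos_le_norm
  refine ⟨2 * R / c + 1, fun ε hε => ?_⟩
  set B : ℝ := 2 * R / c + 1 with hB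
  have hB0 : 0 < B := by positivity
  have huc : UniformContinuous f := hf.uniformContinuous_of_tendsto_cocompact (x := 0)
    hcs.is_zero_at_infty
  obtain ⟨δ, hδ, hδf⟩ := Metric.uniformContinuous_iff.1 huc ε hε
  refine ⟨min (min (δ / (8 * B)) (c / 2)) (min 1 (δ / (8 * c))), by positivity, ?_⟩
  intro r r' s x h1 h2 h3
  simp only [le_min_iff] at h1 h2 h3
  obtain ⟨⟨h1a, h1b⟩, -⟩ := h1
  obtain ⟨⟨h2a, h2b⟩, -⟩ := h2
  obtain ⟨-, h3a, h3b⟩ := h3
  have k1 := abs_le.1 h1b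
  have k2 := abs_le.1 h2b
  split_ifs with hx
  · rw [mul_one]
    have h4 : dist (r' * (x - s)) (r * x) < δ := by
      rw [Real.dist_eq]
      have e : r' * (x - s) - r * x = (r' - c) * x - (r - c) * x - r' * s := by ring
      have a1 : |(r' - c) * x| ≤ δ / (8 * B) * B := by
        rw [abs_mul]
        exact mul_le_mul h2a hx (abs_nonneg _) (by positivity)
      have a2 : |(r - c) * x| ≤ δ / (8 * B) * B := by
        rw [abs_mul]
        exact mul_le_mul h1a hx (abs_nonneg _) (by positivity)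
      have a3 : |r' * s| ≤ 2 * c * (δ / (8 * c)) := by
        rw [abs_mul, abs_of_nonneg (by linarith : 0 ≤ r')]
        exact mul_le_mul (by linarith) h3b (abs_nonneg _) (by positivity)
      have a4 : δ / (8 * B) * B = δ / 8 := by field_simp
      have a5 : 2 * c * (δ / (8 * c)) = δ / 4 := by field_simp; ring
      rw [e, abs_lt]
      rw [a4, abs_le] at a1 a2
      rw [a5, abs_le] at a3
      constructor <;> linarith
    have h7 := hδf h4
    rw [Real.dist_eq] at h7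
    exact h7.le
  · rw [mul_zero]
    have hx' : B < |x| := not_le.1 hx
    have e1 : R = c / 2 * (2 * R / c) := by field_simp
    have h4 : f (r * x) = 0 := by
      apply hRf
      rw [Real.norm_eq_abs, abs_mul, abs_of_nonneg (by linarith : 0 ≤ r), e1]
      exact mul_le_mul (by linarith) (by linarith) (by positivity) (by linarith)
    have h5 : f (r' * (x - s)) = 0 := by
      apply hRf
      rw [Real.norm_eq_abs, abs_mul, abs_of_nonneg (by linarith : 0 ≤ r'), e1]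
      have := abs_sub_abs_le_abs_sub x s
      exact mul_le_mul (by linarith) (by linarith) (by positivity) (by linarith)
    rw [h4, h5, sub_zero, abs_zero]

variable {d : ℕ} {a b E S : ℝ} {e : ℕ → ℝ}

theorem ev_rho (hd : 3 ≤ d) (hE : |E| < 2 * Real.sqrt ((d : ℝ) - 1)) {l : Filter ℕ}
    (hl : l ≤ atTop) (he : Tendsto e l (𝓝 E)) (S : ℝ) {κ : ℝ} (hκ : 0 < κ) :
    ∀ᶠ n : ℕ in l, ∀ s : ℝ, |s| ≤ S → |rho d (e n + s / n) - rho d E| ≤ κ := by
  obtain ⟨r, hr, hrr⟩ := Metric.continuousAt_iff.1 (continuousAt_rho hd hE) κ hκ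
  have h1 : Tendsto (fun n : ℕ => S / (n : ℝ)) l (𝓝 0) :=
    (tendsto_const_div_atTop_nhds_zero_nat S).mono_left hl
  filter_upwards [h1.eventually (eventually_lt_nhds (half_pos hr)),
    Metric.tendsto_nhds.1 he _ (half_pos hr), hl (eventually_gt_atTop 0)] with n h2 h3 h4 s hs
  have hn : (0 : ℝ) < n := by exact_mod_cast h4
  refine (hrr ?_).le
  rw [Real.dist_eq] at h3 ⊢
  have h5 : |s / n| ≤ S / n := by
    rw [abs_div, abs_of_pos hn]
    exact div_le_div_of_nonneg_right hs hn.le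
  rw [abs_lt] at h3 ⊢
  rw [abs_le] at h5
  constructor <;> linarith

theorem lapl_move (hbk : Bulk d a b) (hEab : E ∈ Set.Ioo a b)
    (he : Tendsto e (admissible d) (𝓝 E))
    {f : ℝ → ℝ} (hf : Continuous f) (hcs : HasCompactSupport f) (hf0 : ∀ x, 0 ≤ f x)
    {ε : ℝ} (hε : 0 < ε) :
    ∃ S > 0, ∀ᶠ n : ℕ in admissible d, ∀ s : ℝ, |s| ≤ S →
      |lapl n d f (e n + s / n) - lapl n d f (e n)| ≤ ε := by
  have hE := bulk_abs hbk (Set.Ioo_subset_Icc_self hEab)
  obtain ⟨B, hB⟩ := wiggle hf hcs (G.rho_pos' hbk.1 hE)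
  obtain ⟨C, hC⟩ := (specEv hbk).2.1 B
  set C' : ℝ := |C| + 1 with hC'
  have hC'0 : 0 < C' := by positivity
  obtain ⟨κ, hκ, hw⟩ := hB (ε / C') (by positivity)
  refine ⟨κ, hκ, ?_⟩
  filter_upwards [hC, ev_rho hbk.1 hE (admissible_le_atTop d) he κ hκ, adm_pos_ev d,
    he.eventually (Icc_mem_nhds hEab.1 hEab.2)] with n hn1 hn2 hn0 hn3 s hs
  have h0 := hn2 0 (by simpa using hκ.le)
  rw [zero_div, add_zero] at h0
  have hG : ∀ Γ : SimpleGraph (Fin n),
      |Real.exp (-∫ x, f x ∂(Xi n d (e n + s / n) Γ)) - Real.exp (-∫ x, f x ∂(Xi n d (e n) Γ))| ≤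
        ε / C' * ∑ i, (if |xx (e n) Γ i| ≤ B then 1 else 0) := by
    intro Γ
    refine (abs_exp_neg_sub_le (integral_nonneg hf0) (integral_nonneg hf0)).trans ?_
    rw [integral_Xi_eq _ Γ hf hcs, integral_Xi_eq _ Γ hf hcs, ← Finset.sum_sub_distrib,
      Finset.mul_sum]
    refine (Finset.abs_sum_le_sum_abs _ _).trans (Finset.sum_le_sum fun i _ => ?_)
    rw [xx_shift hn0]
    exact hw _ _ _ _ h0 (hn2 s hs) hs
  unfold lapl
  rw [← avg_sub]
  refine (H490.abs_avg_le _ _).trans ((avg_mono fun Γ _ => hG Γ).trans ?_)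
  rw [avg_const_mul]
  calc ε / C' * avg (regularGraphs n d)
        (fun Γ => ∑ i, (if |xx (e n) Γ i| ≤ B then (1 : ℝ) else 0))
      ≤ ε / C' * C' := by
        refine mul_le_mul_of_nonneg_left ?_ (by positivity)
        exact (hn1 _ hn3).trans ((le_abs_self C).trans (by linarith))
    _ = ε := by field_simp

theorem sel_T2 (hS : 0 < S) (hE : ∀ᶠ n in admissible d, e n ∈ Set.Icc a b) (h : SpecMic d a b) :
    Sel (mu (-S) S) (admissible d) (fun 𝒰 s => ∀ ε > 0, ∃ δ > 0, ∀ᶠ n in (𝒰 : Filter ℕ),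
      prob (regularGraphs n d) (fun Γ => ∃ i, |xx (e n + s n / n) Γ i| ≤ δ) ≤ ε) := by
  have h1 : ∀ k : ℕ, Sel (mu (-S) S) (admissible d) (fun 𝒰 s => ∃ δ > 0,
      ∀ᶠ n in (𝒰 : Filter ℕ), prob (regularGraphs n d)
        (fun Γ => ∃ i, |xx (e n + s n / n) Γ i| ≤ δ) ≤ 1 / ((k : ℝ) + 1)) := by
    intro k
    refine Sel.of_bad fun δ hδ => ?_
    obtain ⟨δ', hδ', hB⟩ := h.1 S hS (1 / ((k : ℝ) + 1) * δ) (mul_pos (inv_pos' k) hδ)
    refine ⟨fun n => {s | 1 / ((k : ℝ) + 1) < prob (regularGraphs n d)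
      (fun Γ => ∃ i, |xx (e n + s / n) Γ i| ≤ δ')}, ?_, fun 𝒰 s hs => ⟨δ', hδ', ?_⟩⟩
    · filter_upwards [hB, hE] with n hn hn'
      refine markov_mic hS ?_ (fun s => H801.prob_nonneg _ _) (fun s => H801.prob_le_one _ _)
        (inv_pos' k) (hn _ hn')
      have h2 : Continuous (fun s : ℝ => e n + s / (n : ℝ)) := by fun_prop
      exact (H801.measurable_T2 n d δ').comp h2.measurable
    · filter_upwards [hs] with n hn
      exact not_lt.1 hn
  refine (Sel.all (admissible_le_atTop d) h1).mono fun 𝒰 s h ε hε => ?_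
  obtain ⟨k, hk⟩ := exists_inv_le hε
  obtain ⟨δ', hδ', hB⟩ := h k
  refine ⟨δ', hδ', ?_⟩
  filter_upwards [hB] with n hn
  exact hn.trans hk

theorem sel_T3 (hS : 0 < S) (hE : ∀ᶠ n in admissible d, e n ∈ Set.Icc a b) (h : SpecMic d a b) :
    Sel (mu (-S) S) (admissible d) (fun 𝒰 s => ∀ K : ℕ, ∀ ε > 0, ∃ B : ℝ,
      ∀ᶠ n in (𝒰 : Filter ℕ), prob (WW n d K)
        (fun ω => ∃ x y, B < ‖leadMat ω ((e n + s n / n : ℝ) : ℂ) x y‖) ≤ ε) := by
  have h1 : ∀ p : ℕ × ℕ, Sel (mu (-S) S) (admissible d) (fun 𝒰 s => ∃ B : ℝ,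
      ∀ᶠ n in (𝒰 : Filter ℕ), prob (WW n d p.1)
        (fun ω => ∃ x y, B < ‖leadMat ω ((e n + s n / n : ℝ) : ℂ) x y‖) ≤
          1 / ((p.2 : ℝ) + 1)) := by
    rintro ⟨K, k⟩
    refine Sel.of_bad fun δ hδ => ?_
    obtain ⟨B, hB⟩ := h.2 S hS K (1 / ((k : ℝ) + 1) * δ) (mul_pos (inv_pos' k) hδ)
    refine ⟨fun n => {s | 1 / ((k : ℝ) + 1) < prob (WW n d K)
      (fun ω => ∃ x y, B < ‖leadMat ω ((e n + s / n : ℝ) : ℂ) x y‖)}, ?_, fun 𝒰 s hs => ⟨B, ?_⟩⟩
    · filter_upwards [hB, hE] with n hn hn'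
      refine markov_mic hS ?_ (fun s => H801.prob_nonneg _ _) (fun s => H801.prob_le_one _ _)
        (inv_pos' k) (hn _ hn')
      have h2 : Continuous (fun s : ℝ => e n + s / (n : ℝ)) := by fun_prop
      exact (H801.measurable_T3 n d K B).comp h2.measurable
    · filter_upwards [hs] with n hn
      exact not_lt.1 hn
  refine (Sel.all (admissible_le_atTop d) h1).mono fun 𝒰 s h K ε hε => ?_
  obtain ⟨k, hk⟩ := exists_inv_le hε
  obtain ⟨B, hB⟩ := h (K, k)
  refine ⟨B, ?_⟩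
  filter_upwards [hB] with n hn
  exact hn.trans hk

theorem sel_nonsing (e : ℕ → ℝ) (S : ℝ) : Sel (mu (-S) S) (admissible d) (fun 𝒰 s =>
    ∀ᶠ n in (𝒰 : Filter ℕ), ∀ Γ ∈ regularGraphs n d, ∀ D : Finset (Fin n),
      IsUnit (cutMat (adj Γ) D ((e n + s n / n : ℝ) : ℂ)).det) := by
  refine Sel.of_null (p := fun n (s : ℝ) => ∀ Γ ∈ regularGraphs n d, ∀ D : Finset (Fin n),
    IsUnit (cutMat (adj Γ) D ((e n + s / n : ℝ) : ℂ)).det) ?_
  filter_upwards [adm_pos_ev d] with n hn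
  exact le_antisymm ((mu_le (-S) S _).trans (null_shift (H801.nonsing_null n d) _ hn).le) zero_le

theorem sel_trans (e : ℕ → ℝ) (S : ℝ) : Sel (mu (-S) S) (admissible d) (fun 𝒰 s =>
    ∀ᶠ n in (𝒰 : Filter ℕ), Transcendental ℤ (e n + s n / n)) := by
  refine Sel.of_null (p := fun n (s : ℝ) => Transcendental ℤ (e n + s / n)) ?_
  filter_upwards [adm_pos_ev d] with n hn
  have h1 : volume {x : ℝ | ¬ Transcendental ℤ x} = 0 := by
    have h2 : {x : ℝ | ¬ Transcendental ℤ x} = {x : ℝ | IsAlgebraic ℤ x} := by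
      ext x
      simp [Transcendental]
    rw [h2]
    exact (Algebraic.countable ℤ ℝ).measure_zero volume
  exact le_antisymm ((mu_le (-S) S _).trans (null_shift h1 _ hn).le) zero_le

theorem sel_good (hbk : Bulk d a b) (hEab : E ∈ Set.Ioo a b) (hS : 0 < S)
    (he : Tendsto e (admissible d) (𝓝 E)) :
    Sel (mu (-S) S) (admissible d) (fun 𝒰 s => (𝒰 : Filter ℕ) ≤ admissible d →
      (∀ᶠ n in (𝒰 : Filter ℕ), |s n| ≤ S) ∧ GoodSeq d 𝒰 (fun n => e n + s n / n) E) := by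
  have hl := admissible_le_atTop d
  have hEv := specEv hbk
  have hMic := specMic_of_ev hbk hEv
  have hE : ∀ᶠ n in admissible d, e n ∈ Set.Icc a b := he.eventually (Icc_mem_nhds hEab.1 hEab.2)
  refine ((sel_bd S).and hl ((sel_T2 hS hE hMic).and hl ((sel_T3 hS hE hMic).and hl
    ((sel_nonsing e S).and hl (sel_trans e S))))).mono ?_
  rintro 𝒰 s ⟨bd, t2, t3, ns, tr⟩ h𝒰
  have hlim : Tendsto (fun n => e n + s n / n) 𝒰 (𝓝 E) := by
    have h1 := (he.mono_left h𝒰).add (tendsto_shift 0 S h𝒰 bd)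
    simpa using h1
  have hmem : ∀ᶠ n in (𝒰 : Filter ℕ), e n + s n / n ∈ Set.Icc a b :=
    hlim.eventually (Icc_mem_nhds hEab.1 hEab.2)
  refine ⟨bd, ?_⟩
  exact
    { three := hbk.1
      atTop := h𝒰.trans hl
      even := by
        have : (𝒰 : Filter ℕ) ≤ 𝓟 {n : ℕ | d < n ∧ Even (n * d)} := h𝒰.trans inf_le_right
        exact le_principal_iff.1 this
      bulk := bulk_abs hbk (Set.Ioo_subset_Icc_self hEab)
      lim := hlim
      nonsing := ns
      trans := tr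
      T1 := by
        intro ε hε
        obtain ⟨B, hB⟩ := hEv.1 ε hε
        refine ⟨B, ?_⟩
        filter_upwards [h𝒰 hB, hmem] with n hn hm
        exact hn _ hm
      T1' := by
        intro B
        obtain ⟨C, hC⟩ := hEv.2.1 B
        refine ⟨C, ?_⟩
        filter_upwards [h𝒰 hC, hmem] with n hn hm
        exact hn _ hm
      T2 := t2
      T3 := t3
      T4 := by
        intro K ε hε
        obtain ⟨L₀, hL₀⟩ := hEv.2.2.1 K ε hε
        refine ⟨L₀, fun L hL => ⟨L, le_rfl, ?_⟩⟩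
        filter_upwards [h𝒰 (hL₀ L hL), hmem] with n hn hm
        exact hn _ hm
      T5 := by
        intro B ε hε
        obtain ⟨M, hM⟩ := hEv.2.2.2 B ε hε
        refine ⟨M, ?_⟩
        filter_upwards [h𝒰 hM, hmem] with n hn hm
        exact hn _ hm }

/-- Laplace functionals along moving energies -/
theorem lapl_tendsto (hd : 3 ≤ d) (hE : |E| < 2 * Real.sqrt ((d : ℝ) - 1))
    (he : Tendsto e (admissible d) (𝓝 E)) (f : ℝ → ℝ) (hfc : Continuous f)
    (hfs : HasCompactSupport f) (hf0 : ∀ x, 0 ≤ f x) :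
    Tendsto (fun n => lapl n d f (e n) - ∫ w, Real.exp (-∫ x, f x ∂(XiGOE n w)) ∂(goeLaw n))
      (admissible d) (𝓝 0) := by
  have hG : SpecGoodLimit d := G.specGoodLimit_of hd (H849.specS hd) goeLimit
  obtain ⟨a, b, hbk, hEab⟩ := exists_bulk hd hE
  set Y : ℕ → ℝ := fun n => ∫ w, Real.exp (-∫ x, f x ∂(XiGOE n w)) ∂(goeLaw n) with hY
  by_contra hcon
  obtain ⟨ε, hε, hfr⟩ : ∃ ε > 0, ∃ᶠ n in admissible d, 2 * ε ≤ |lapl n d f (e n) - Y n| := by
    rw [Metric.tendsto_nhds] at hcon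
    push Not at hcon
    obtain ⟨ε, hε, h⟩ := hcon
    refine ⟨ε / 2, by linarith, h.mono fun n hn => ?_⟩
    rw [dist_zero_right, Real.norm_eq_abs] at hn
    linarith
  obtain ⟨S, hS, hcmp⟩ := lapl_move hbk hEab he hfc hfs hf0 (half_pos hε)
  set D : ℕ → Set ℝ := fun n => {_s : ℝ | 2 * ε ≤ |lapl n d f (e n) - Y n|} with hD
  have hDfr : ∃ᶠ n in admissible d, ENNReal.ofReal (2 * S) ≤ mu (-S) S (D n) := by
    refine hfr.mono fun n hn => ?_
    have h1 : D n = Set.univ := by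
      ext s
      simp only [hD, Set.mem_ofPred_eq, Set.mem_univ, iff_true]
      exact hn
    rw [h1]
    unfold mu
    rw [Measure.restrict_apply_univ, Real.volume_Ioc]
    exact ENNReal.ofReal_le_ofReal (by linarith)
  obtain ⟨𝒰, s, h𝒰, hsD, hgood⟩ := (sel_good hbk hEab hS he).exists
    D (by simpa using hS) hDfr 0
  obtain ⟨hbd, hgs⟩ := hgood h𝒰
  have hlim := hG 𝒰 (fun n => e n + s n / n) E hgs f hfc hfs hf0
  have hlim' := (tendsto_order.1 hlim.abs).2 (ε / 2) (by simpa using hε)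
  obtain ⟨n, ⟨hn1, hn2⟩, hn3, hn4⟩ :=
    ((hsD.and hlim').and (hbd.and (h𝒰 hcmp))).exists
  have h5 := hn4 (s n) hn3
  have h6 : 2 * ε ≤ |lapl n d f (e n) - Y n| := hn1
  have h7 : |lapl n d f (e n + s n / n) - Y n| < ε / 2 := hn2
  rw [abs_le] at h5
  rw [abs_lt] at h7
  rcases le_abs.1 h6 with h | h <;> linarith [h5.1, h5.2, h7.1, h7.2]

end Vale.Agent.N156
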